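import Vale.Agent.P050.Bdl.B1

/-!
Finite Jensen inequality and the degree-weighted form of the homomorphism density:
`t(H,G) = p^e(H) * E_pi [ prod_v r(x_v)^(deg v - 1) * prod_e K ]` for the regular kernel
`K x y = [x ~ y] p n^2 / (d x * d y)` and the law `pi x = d x / (p n^2)`, `r = n pi`.
-/

open Finset

noncomputable section

namespace Vale.Agent.P050.R2.H111

/-- Jensen for `exp`, unnormalised weights -/
theorem jensen_exp {ι : Type*} (s : Finset ι) (q F : ι → ℝ) (hq : ∀ i ∈ s, 0 ≤ q i)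
    (hZ : 0 < ∑ i ∈ s, q i) :
    (∑ i ∈ s, q i) * Real.exp ((∑ i ∈ s, q i * F i) / ∑ i ∈ s, q i) ≤
      ∑ i ∈ s, q i * Real.exp (F i) := by
  set Z := ∑ i ∈ s, q i with hZd
  set m := (∑ i ∈ s, q i * F i) / Z with hm
  have h1 : ∀ i ∈ s, q i * (Real.exp m * (1 + (F i - m))) ≤ q i * Real.exp (F i) := by
    intro i hi
    refine mul_le_mul_of_nonneg_left ?_ (hq i hi)
    have h2 : 1 + (F i - m) ≤ Real.exp (F i - m) := by
      linarith [Real.add_one_le_exp (F i - m)]
    calc Real.exp m * (1 + (F i - m)) ≤ Real.exp m * Real.exp (F i - m) :=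
          mul_le_mul_of_nonneg_left h2 (Real.exp_pos m).le
      _ = Real.exp (F i) := by rw [← Real.exp_add]; ring_nf
  have h3 := Finset.sum_le_sum h1
  have h4 : ∑ i ∈ s, q i * (Real.exp m * (1 + (F i - m))) = Z * Real.exp m := by
    have h5 : ∀ i, q i * (Real.exp m * (1 + (F i - m))) =
        Real.exp m * (q i * F i) + (Real.exp m * (1 - m)) * q i := by intro i; ring
    simp_rw [h5]
    rw [Finset.sum_add_distrib, ← Finset.mul_sum, ← Finset.mul_sum]
    have h6 : ∑ i ∈ s, q i * F i = m * Z := by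
      rw [hm]; field_simp
    rw [h6, ← hZd]; ring
  rw [h4] at h3
  exact h3

end Vale.Agent.P050.R2.H111
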