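import Vale.Agent.P050.Bdl.B1
import Vale.Agent.P050.R2.H300.Defs
import Vale.Agent.P050.R2.H111.Jens

set_option linter.all false

/-!
Regularisation of a target: `W` symmetric, nonnegative, positive row sums `d x`, `T = sum d`,
`n = |X|`.  `pi x = d x / T`, `r x = n pi x`, `K x y = W x y T / (d x d y)`:
`sum_y pi y K x y = 1`, and
`sum_z prod_e W = (T/n^2)^e n^v sum_z prod_v pi (z v) (r (z v))^(deg v) / r (z v) prod_e K`.
-/

open Finset MeasureTheory

noncomputable section

namespace Vale.Agent.P050.R2.H111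

open Vale.Agent.P050

variable {V X : Type*} [Fintype V] [DecidableEq V] [Fintype X]

section mat

variable (A : X → X → ℝ)

/-- row sums -/
def dgr (x : X) : ℝ := ∑ y, A x y

/-- total -/
def tot : ℝ := ∑ x, dgr A x

/-- degree-biased law -/
def pi0 (x : X) : ℝ := dgr A x / tot A

/-- relative degree -/
def rr (x : X) : ℝ := Fintype.card X * pi0 A x

/-- regularised kernel -/
def KK (x y : X) : ℝ := A x y * tot A / (dgr A x * dgr A y)

variable {A}

lemma tot_pos [Nonempty X] (hd : ∀ x, 0 < dgr A x) : 0 < tot A :=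
  Finset.sum_pos (fun x _ => hd x) univ_nonempty

lemma pi0_pos [Nonempty X] (hd : ∀ x, 0 < dgr A x) (x : X) : 0 < pi0 A x :=
  div_pos (hd x) (tot_pos hd)

lemma sum_pi0 [Nonempty X] (hd : ∀ x, 0 < dgr A x) : ∑ x, pi0 A x = 1 := by
  unfold pi0
  rw [← sum_div, ← tot, div_self (tot_pos hd).ne']

lemma rr_pos [Nonempty X] (hd : ∀ x, 0 < dgr A x) (x : X) : 0 < rr A x :=
  mul_pos (by exact_mod_cast Fintype.card_pos) (pi0_pos hd x)

lemma KK_symm (hA : ∀ x y, A x y = A y x) (x y : X) : KK A x y = KK A y x := by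
  unfold KK; rw [hA x y, mul_comm (dgr A x)]

lemma KK_nonneg [Nonempty X] (hA0 : ∀ x y, 0 ≤ A x y) (hd : ∀ x, 0 < dgr A x) (x y : X) :
    0 ≤ KK A x y :=
  div_nonneg (mul_nonneg (hA0 x y) (tot_pos hd).le) (mul_pos (hd x) (hd y)).le

lemma sum_KK [Nonempty X] (hd : ∀ x, 0 < dgr A x) (x : X) : ∑ y, pi0 A y * KK A x y = 1 := by
  have h : ∀ y, pi0 A y * KK A x y = A x y / dgr A x := by
    intro y
    unfold pi0 KK
    have h1 := (hd x).ne'
    have h2 := (hd y).ne'
    have h3 := (tot_pos hd).ne'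
    field_simp
  simp_rw [h]
  rw [← sum_div, ← dgr, div_self (hd x).ne']

/-- product over the endpoints of the edges -/
lemma prod_ends (H : SimpleGraph V) [DecidableRel H.Adj] (g : V → ℝ) :
    ∏ e ∈ H.edgeFinset, (Sym2.lift ⟨fun u v => g u * g v, fun u v => mul_comm _ _⟩ e) =
      ∏ v, g v ^ H.degree v := by
  classical
  have h1 : ∀ e ∈ H.edgeFinset, (Sym2.lift ⟨fun u v => g u * g v, fun u v => mul_comm _ _⟩ e) =
      ∏ v, if v ∈ e then g v else 1 := by
    intro e he
    induction e with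
    | h a b =>
      rw [SimpleGraph.mem_edgeFinset, SimpleGraph.mem_edgeSet] at he
      have hab : a ≠ b := he.ne
      rw [Sym2.lift_mk]
      simp only [Sym2.mem_iff]
      rw [prod_ite, prod_const_one, mul_one]
      have : (univ.filter fun x => x = a ∨ x = b) = {a, b} := by
        ext x; simp
      rw [this, prod_pair hab]
  rw [prod_congr rfl h1, prod_comm]
  refine prod_congr rfl fun v _ => ?_
  rw [prod_ite, prod_const_one, mul_one, prod_const]
  congr 1
  rw [← SimpleGraph.card_incidenceFinset_eq_degree]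
  congr 1
  ext e
  simp [SimpleGraph.incidenceSet, and_comm]

/-- the weighted form of a product over edges -/
theorem prod_ev_eq [Nonempty X] (H : SimpleGraph V) [DecidableRel H.Adj]
    (hA : ∀ x y, A x y = A y x) (hd : ∀ x, 0 < dgr A x) (x : V → X) :
    ∏ e ∈ H.edgeFinset, ev A hA x e =
      (tot A / (Fintype.card X : ℝ) ^ 2) ^ H.edgeFinset.card *
        (Fintype.card X : ℝ) ^ Fintype.card V *
        ((∏ v, pi0 A (x v)) * ((∏ v, rr A (x v) ^ H.degree v / rr A (x v)) *
          ∏ e ∈ H.edgeFinset, ev (KK A) (KK_symm hA) x e)) := by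
  have hn : (Fintype.card X : ℝ) ≠ 0 := by exact_mod_cast Fintype.card_pos.ne'
  have hT := (tot_pos hd).ne'
  have h1 : ∀ e ∈ H.edgeFinset, ev A hA x e =
      (tot A / (Fintype.card X : ℝ) ^ 2) *
        (Sym2.lift ⟨fun u v => rr A (x u) * rr A (x v), fun u v => mul_comm _ _⟩ e) *
        ev (KK A) (KK_symm hA) x e := by
    intro e _
    induction e with
    | h a b =>
      simp only [ev, Sym2.lift_mk, Sym2.map_mk, rr, pi0, KK]
      have h2 := (hd (x a)).ne'
      have h3 := (hd (x b)).ne'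
      field_simp
  rw [prod_congr rfl h1, prod_mul_distrib, prod_mul_distrib, prod_const,
    prod_ends H (fun v => rr A (x v))]
  have h4 : (Fintype.card X : ℝ) ^ Fintype.card V * (∏ v, pi0 A (x v)) = ∏ v, rr A (x v) := by
    unfold rr
    rw [prod_mul_distrib, prod_const, card_univ]
  have h5 : (∏ v, rr A (x v)) * (∏ v, rr A (x v) ^ H.degree v / rr A (x v)) =
      ∏ v, rr A (x v) ^ H.degree v := by
    rw [← prod_mul_distrib]
    refine prod_congr rfl fun v _ => ?_
    rw [mul_div_cancel₀ _ (rr_pos hd (x v)).ne']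
  rw [← h5, ← h4]
  ring

end mat

/-! ### the measure -/

section meas

variable [MeasurableSpace X] [MeasurableSingletonClass X]

/-- integral over a finite product -/
lemma integral_piM {μ : Measure X} [IsProbabilityMeasure μ] {w : X → ℝ}
    (hw : ∀ x, μ.real {x} = w x) (F : (V → X) → ℝ) :
    ∫ z, F z ∂(piM V μ) = ∑ z : V → X, (∏ v, w (z v)) * F z := by
  classical
  rw [integral_fintype Integrable.of_finite]
  refine sum_congr rfl fun z _ => ?_
  rw [smul_eq_mul]
  congr 1
  rw [Measure.real, Measure.pi_singleton, ENNReal.toReal_prod]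
  exact prod_congr rfl fun v _ => hw (z v)

lemma integral_one {μ : Measure X} [IsProbabilityMeasure μ] {w : X → ℝ}
    (hw : ∀ x, μ.real {x} = w x) (F : X → ℝ) :
    ∫ z, F z ∂μ = ∑ z, w z * F z := by
  rw [integral_fintype Integrable.of_finite]
  refine sum_congr rfl fun z _ => ?_
  rw [smul_eq_mul, hw]

lemma bm_of_finite {Y : Type*} [Fintype Y] [MeasurableSpace Y] [MeasurableSingletonClass Y]
    (F : Y → ℝ) : BM F := by
  refine ⟨measurable_of_finite F, ∑ y, |F y|, fun y => ?_⟩
  exact single_le_sum (f := fun y => |F y|) (fun i _ => abs_nonneg _) (mem_univ y)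

/-- isolated vertices are integrated out -/
lemma iso_out {μ : Measure X} [IsProbabilityMeasure μ] (H : SimpleGraph V) [DecidableRel H.Adj]
    (U : Sym2 X → ℝ) (r : X → ℝ) (hr : ∀ x, 0 < r x) (hr1 : ∫ s, (r s)⁻¹ ∂μ = 1) :
    ∫ z, (∏ v, r (z v) ^ H.degree v / r (z v)) * ∏ e ∈ H.edgeFinset, (1 + U (e.map z))
        ∂(piM V μ) =
      ∫ z, (∏ v, r (z v) ^ (H.degree v - 1)) * ∏ e ∈ H.edgeFinset, (1 + U (e.map z))
        ∂(piM V μ) := by
  classical
  set I : Finset V := univ.filter (fun v => H.degree v = 0) with hI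
  set R : (V → X) → ℝ := fun z => (∏ v, r (z v) ^ (H.degree v - 1)) *
    ∏ e ∈ H.edgeFinset, (1 + U (e.map z)) with hR
  set F : (V → X) → ℝ := fun z => ∏ v ∈ I, (r (z v))⁻¹ with hF
  have h1 : ∀ z, (∏ v, r (z v) ^ H.degree v / r (z v)) *
      ∏ e ∈ H.edgeFinset, (1 + U (e.map z)) = F z * R z := by
    intro z
    simp only [hF, hR]
    rw [← mul_assoc]
    congr 1
    rw [hI, prod_filter, ← prod_mul_distrib]
    refine prod_congr rfl fun v _ => ?_
    have h2 := (hr (z v)).ne'
    split_ifs with h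
    · rw [h]; simp
    · rw [one_mul]
      obtain ⟨k, hk⟩ := Nat.exists_eq_succ_of_ne_zero h
      rw [hk, Nat.succ_sub_one, pow_succ, mul_div_assoc, div_self h2, mul_one]
  simp only [h1]
  have h2 := integral_mul_of_ind μ I F R (bm_of_finite F) (bm_of_finite R)
    (by
      intro v hv z y
      simp only [hF]
      refine prod_congr rfl fun u hu => ?_
      have : u ≠ v := fun h => hv (h ▸ hu)
      rw [Function.update_of_ne this])
    (by
      intro v hv z y
      rw [hI, mem_filter] at hv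
      simp only [hR]
      congr 1
      · refine prod_congr rfl fun u _ => ?_
        by_cases h : u = v
        · subst h; rw [hv.2]; simp
        · rw [Function.update_of_ne h]
      · refine prod_congr rfl fun e he => ?_
        rw [map_update_of_notMem]
        intro hve
        have h3 : e ∈ H.incidenceFinset v := by
          rw [SimpleGraph.mem_incidenceFinset]
          exact ⟨SimpleGraph.mem_edgeFinset.mp he, hve⟩
        have h4 : 0 < (H.incidenceFinset v).card := card_pos.mpr ⟨e, h3⟩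
        rw [SimpleGraph.card_incidenceFinset_eq_degree] at h4
        omega)
  rw [h2]
  have h3 : ∫ z, F z ∂(piM V μ) = 1 := by
    have h4 : ∀ z : V → X, F z = ∏ v, (fun v (s : X) => if v ∈ I then (r s)⁻¹ else 1) v (z v) := by
      intro z
      simp only [hF]
      rw [prod_ite_mem, univ_inter]
    have h5 := integral_fintype_prod_eq_prod (𝕜 := ℝ) (μ := fun _ : V => μ)
      (fun (v : V) (s : X) => if v ∈ I then (r s)⁻¹ else 1)
    have h6 : ∫ z, F z ∂(piM V μ) =
        ∫ z : V → X, ∏ v, (fun (v : V) (s : X) => if v ∈ I then (r s)⁻¹ else 1) v (z v)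
          ∂(Measure.pi fun _ : V => μ) := integral_congr_ae (Filter.Eventually.of_forall h4)
    rw [h6]
    refine h5.trans (prod_eq_one fun v _ => ?_)
    by_cases hv : v ∈ I
    · simp only [hv, if_true]; exact hr1
    · simp only [hv, if_false]; simp
  rw [h3, one_mul]

end meas

/-- scalar inequality -/
lemma log_sq_le {r : ℝ} (h1 : 9 / 10 ≤ r) (h2 : r ≤ 11 / 10) :
    r * Real.log r ^ 2 ≤ 11 / 5 * (r * Real.log r - (r - 1)) := by
  have hr : 0 < r := by linarith
  set u := Real.log r with hu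
  have e1 : Real.exp (-u) = r⁻¹ := by rw [Real.exp_neg, hu, Real.exp_log hr]
  have hu1 : u ≤ 1 / 10 := by
    have := Real.log_le_sub_one_of_pos hr
    linarith
  have hu2 : -(1 / 9) ≤ u := by
    have h3 := Real.one_sub_inv_le_log_of_pos hr
    have h4 : r⁻¹ ≤ 10 / 9 := by
      rw [inv_le_comm₀ hr (by norm_num)]
      norm_num; exact h1
    linarith
  have habs : |u| ≤ 1 / 9 := by rw [abs_le]; constructor <;> linarith
  have h5 := Real.exp_bound (x := -u) (by rw [abs_neg]; linarith) (n := 3) (by norm_num)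
  rw [abs_neg] at h5
  have h6 : ∑ m ∈ range 3, (-u) ^ m / (m.factorial : ℝ) = 1 - u + u ^ 2 / 2 := by
    simp [sum_range_succ, Nat.factorial]; ring
  rw [h6] at h5
  have h7 : ((3:ℕ).succ : ℝ) / (((3:ℕ).factorial : ℝ) * ((3:ℕ) : ℝ)) = 2 / 9 := by
    norm_num [Nat.factorial]
  rw [h7] at h5
  have h8 := (abs_le.mp h5).1
  have h9 : |u| ^ 3 ≤ 1 / 9 * u ^ 2 := by
    rw [pow_succ, sq_abs, mul_comm]
    exact mul_le_mul_of_nonneg_right habs (sq_nonneg u)
  have h10 : 5 / 11 * u ^ 2 ≤ u - 1 + Real.exp (-u) := by nlinarith [sq_nonneg u]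
  rw [e1] at h10
  have h11 : r * (5 / 11 * u ^ 2) ≤ r * (u - 1 + r⁻¹) := mul_le_mul_of_nonneg_left h10 hr.le
  have h12 : r * (u - 1 + r⁻¹) = r * u - (r - 1) := by
    field_simp; ring
  rw [h12] at h11
  linarith

end Vale.Agent.P050.R2.H111
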