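import Vale.Agent.P050.R2.H111.Reg
import Mathlib.Probability.ProbabilityMassFunction.Constructions

set_option linter.all false

/-!
M7: reduction of the density of a target with large minimum degree to a regular kernel.
-/

open Finset MeasureTheory

noncomputable section

namespace Vale.Agent.P050.R2.H111

open Vale.Agent.P050 Vale.Agent.P050.Dense

variable {V X : Type} [Fintype V] [DecidableEq V] [Fintype X] [Nonempty X]

/-- the probability measure with given positive weights -/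
lemma exists_measure [MeasurableSpace X] [MeasurableSingletonClass X] (w : X → ℝ)
    (hw : ∀ x, 0 < w x) (hs : ∑ x, w x = 1) :
    ∃ μ : Measure X, IsProbabilityMeasure μ ∧ ∀ x, μ.real {x} = w x := by
  have h1 : ∑ x, ENNReal.ofReal (w x) = 1 := by
    rw [← ENNReal.ofReal_sum_of_nonneg (fun x _ => (hw x).le), hs, ENNReal.ofReal_one]
  refine ⟨(PMF.ofFintype (fun x => ENNReal.ofReal (w x)) h1).toMeasure, inferInstance,
    fun x => ?_⟩
  rw [Measure.real, PMF.toMeasure_apply_singleton _ _ (measurableSet_singleton x),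
    PMF.ofFintype_apply, ENNReal.toReal_ofReal (hw x).le]

section bounds

variable {W : X → X → ℝ} {θ : ℝ}

lemma dgr_le (h1 : ∀ x y, W x y ≤ 1) (x : X) : dgr W x ≤ Fintype.card X := by
  unfold dgr
  calc ∑ y, W x y ≤ ∑ _y : X, (1:ℝ) := sum_le_sum fun y _ => h1 x y
    _ = Fintype.card X := by simp

lemma card_pos' : (0:ℝ) < Fintype.card X := by exact_mod_cast Fintype.card_pos

lemma dgr_pos (hθ : θ ≤ 1 / 100) (hmin : ∀ x, (1 - θ) * Fintype.card X ≤ ∑ y, W x y) (x : X) :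
    0 < dgr W x := by
  have hn := card_pos' (X := X)
  have h := hmin x
  have : 0 < (1 - θ) * (Fintype.card X : ℝ) := mul_pos (by linarith) hn
  exact lt_of_lt_of_le this h

lemma tot_ge (hmin : ∀ x, (1 - θ) * Fintype.card X ≤ ∑ y, W x y) :
    (1 - θ) * (Fintype.card X : ℝ) ^ 2 ≤ tot W := by
  unfold tot dgr
  calc (1 - θ) * (Fintype.card X : ℝ) ^ 2 = ∑ _x : X, (1 - θ) * (Fintype.card X : ℝ) := by
        rw [sum_const, card_univ, nsmul_eq_mul]; ring
    _ ≤ _ := sum_le_sum fun x _ => hmin x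

lemma tot_le (h1 : ∀ x y, W x y ≤ 1) : tot W ≤ (Fintype.card X : ℝ) ^ 2 := by
  unfold tot
  calc ∑ x, dgr W x ≤ ∑ _x : X, (Fintype.card X : ℝ) := sum_le_sum fun x _ => dgr_le h1 x
    _ = _ := by rw [sum_const, card_univ, nsmul_eq_mul]; ring

lemma rr_ge (h1 : ∀ x y, W x y ≤ 1) (hθ0 : 0 < θ) (hθ : θ ≤ 1 / 100)
    (hmin : ∀ x, (1 - θ) * Fintype.card X ≤ ∑ y, W x y) (x : X) : 9 / 10 ≤ rr W x := by
  have hn := card_pos' (X := X)
  have hT : 0 < tot W := tot_pos (dgr_pos hθ hmin)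
  have hT2 := tot_le h1
  have hd : (1 - θ) * Fintype.card X ≤ dgr W x := hmin x
  unfold rr pi0
  rw [← mul_div_assoc, le_div_iff₀ hT]
  have h2 : (Fintype.card X : ℝ) * ((1 - θ) * Fintype.card X) ≤ Fintype.card X * dgr W x :=
    mul_le_mul_of_nonneg_left hd hn.le
  have h3 : 0 ≤ (Fintype.card X : ℝ) ^ 2 := sq_nonneg _
  nlinarith

lemma rr_le (h1 : ∀ x y, W x y ≤ 1) (hθ0 : 0 < θ) (hθ : θ ≤ 1 / 100)
    (hmin : ∀ x, (1 - θ) * Fintype.card X ≤ ∑ y, W x y) (x : X) : rr W x ≤ 11 / 10 := by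
  have hn := card_pos' (X := X)
  have hT : 0 < tot W := tot_pos (dgr_pos hθ hmin)
  have hT2 := tot_ge hmin
  have hd := dgr_le h1 x
  unfold rr pi0
  rw [← mul_div_assoc, div_le_iff₀ hT]
  have h2 : (Fintype.card X : ℝ) * dgr W x ≤ Fintype.card X * Fintype.card X :=
    mul_le_mul_of_nonneg_left hd hn.le
  have h3 : 0 ≤ (Fintype.card X : ℝ) ^ 2 := sq_nonneg _
  nlinarith

lemma KK_le (h0 : ∀ x y, 0 ≤ W x y) (h1 : ∀ x y, W x y ≤ 1) (hθ0 : 0 < θ) (hθ : θ ≤ 1 / 100)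
    (hmin : ∀ x, (1 - θ) * Fintype.card X ≤ ∑ y, W x y) (x y : X) :
    KK W x y ≤ 1 + 5 / 2 * θ := by
  have hn := card_pos' (X := X)
  have hT : 0 < tot W := tot_pos (dgr_pos hθ hmin)
  have hT2 := tot_le h1
  have hdx : (1 - θ) * Fintype.card X ≤ dgr W x := hmin x
  have hdy : (1 - θ) * Fintype.card X ≤ dgr W y := hmin y
  have hdx0 := dgr_pos hθ hmin x
  have hdy0 := dgr_pos hθ hmin y
  have h5 : 0 ≤ (1 - θ) * (Fintype.card X : ℝ) := mul_nonneg (by linarith) hn.le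
  unfold KK
  rw [div_le_iff₀ (mul_pos hdx0 hdy0)]
  have h2 : W x y * tot W ≤ 1 * (Fintype.card X : ℝ) ^ 2 :=
    mul_le_mul (h1 x y) hT2 hT.le zero_le_one
  have h3 : ((1 - θ) * Fintype.card X) * ((1 - θ) * Fintype.card X) ≤ dgr W x * dgr W y :=
    mul_le_mul hdx hdy h5 hdx0.le
  have h4 : 1 ≤ (1 + 5 / 2 * θ) * ((1 - θ) * (1 - θ)) := by
    have e : (1 + 5 / 2 * θ) * ((1 - θ) * (1 - θ)) - 1 =
        θ * (1 / 2 - 4 * θ) + 5 / 2 * θ * θ ^ 2 := by ring
    have e1 : 0 ≤ θ * (1 / 2 - 4 * θ) := mul_nonneg hθ0.le (by linarith)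
    have e2 : 0 ≤ 5 / 2 * θ * θ ^ 2 := by positivity
    linarith
  have h6 : (1 + 5 / 2 * θ) * (((1 - θ) * Fintype.card X) * ((1 - θ) * Fintype.card X)) ≤
      (1 + 5 / 2 * θ) * (dgr W x * dgr W y) :=
    mul_le_mul_of_nonneg_left h3 (by linarith)
  have h7 : 1 * (Fintype.card X : ℝ) ^ 2 ≤
      ((1 + 5 / 2 * θ) * ((1 - θ) * (1 - θ))) * (Fintype.card X : ℝ) ^ 2 :=
    mul_le_mul_of_nonneg_right h4 (sq_nonneg _)
  nlinarith

end bounds

/-- the perturbation of the regularised kernel -/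
def UU (W : X → X → ℝ) (hs : ∀ x y, W x y = W y x) (e : Sym2 X) : ℝ :=
  Sym2.lift ⟨KK W, KK_symm hs⟩ e - 1

lemma UU_mk (W : X → X → ℝ) (hs : ∀ x y, W x y = W y x) (x y : X) :
    UU W hs s(x, y) = KK W x y - 1 := by
  rw [UU, Sym2.lift_mk]

lemma ev_eq_UU (W : X → X → ℝ) (hs : ∀ x y, W x y = W y x) (z : V → X) (e : Sym2 V) :
    ev (KK W) (KK_symm hs) z e = 1 + UU W hs (e.map z) := by
  induction e with
  | h a b =>
    rw [Sym2.map_mk, UU_mk, ev, Sym2.lift_mk]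
    ring

theorem red_aux [MeasurableSpace X] [MeasurableSingletonClass X]
    (W : X → X → ℝ) (hs : ∀ x y, W x y = W y x) (h0 : ∀ x y, 0 ≤ W x y)
    (h1 : ∀ x y, W x y ≤ 1) (H : SimpleGraph V) [DecidableRel H.Adj]
    {θ : ℝ} (hθ0 : 0 < θ) (hθ : θ ≤ 1 / 100)
    (hmin : ∀ x, (1 - θ) * Fintype.card X ≤ ∑ y, W x y) :
    ∃ (μ : Measure X) (U : Sym2 X → ℝ) (g : X → ℝ) (κ₀ : ℝ),
      IsProbabilityMeasure μ ∧ Ker μ U (5 * θ) (3 * θ) ∧ BM g ∧ ∫ s, g s ∂μ = 0 ∧ 0 ≤ κ₀ ∧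
      ∫ s, g s ^ 2 ∂μ ≤ 11 / 5 * κ₀ ∧
      ∀ Z : ℝ, Z = ∫ z, ∏ e ∈ H.edgeFinset, (1 + U (e.map z)) ∂(piM V μ) → 0 < Z →
        pden W ^ H.edgeFinset.card * Z * Real.exp (∑ v, ((H.degree v - 1 : ℕ) : ℝ) * (κ₀ +
          (∫ z, g (z v) * ∏ e ∈ H.edgeFinset, (1 + U (e.map z)) ∂(piM V μ)) / Z))
          ≤ tden H W hs := by
  have hn := card_pos' (X := X)
  have hd := dgr_pos hθ hmin
  have hT : 0 < tot W := tot_pos hd
  obtain ⟨μ, hμ, hw⟩ := exists_measure (pi0 W) (pi0_pos hd) (sum_pi0 hd)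
  set U : Sym2 X → ℝ := UU W hs with hU
  have hone : ∀ F : X → ℝ, ∫ z, F z ∂μ = ∑ z, pi0 W z * F z := integral_one hw
  have hpi : ∀ F : (V → X) → ℝ, ∫ z, F z ∂(piM V μ) = ∑ z : V → X, (∏ v, pi0 W (z v)) * F z :=
    integral_piM hw
  set κ₀ : ℝ := ∫ s, Real.log (rr W s) ∂μ with hκ
  -- the kernel
  have htwo : ∀ s t, two U s t = KK W s t - 1 := fun s t => UU_mk W hs s t
  have hzero : ∀ s, ∫ t, two U s t ∂μ = 0 := by
    intro s
    rw [hone]
    have : ∀ t, pi0 W t * two U s t = pi0 W t * KK W s t - pi0 W t := by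
      intro t; rw [htwo]; ring
    simp_rw [this]
    rw [sum_sub_distrib, sum_KK hd, sum_pi0 hd, sub_self]
  have hup : ∀ x y, KK W x y - 1 ≤ 5 / 2 * θ := by
    intro x y
    have := KK_le h0 h1 hθ0 hθ hmin x y
    linarith
  have hker : Ker μ U (5 * θ) (3 * θ) := by
    refine ⟨⟨measurable_of_finite _, one_pos, ?_⟩, hzero, by linarith, by linarith, ?_, ?_⟩
    · intro e
      induction e with
      | h a b =>
        rw [hU, UU_mk, abs_le]
        have h2 := KK_nonneg h0 hd a b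
        have h3 := hup a b
        constructor <;> linarith
    · intro s
      have h2 : ∫ t, |two U s t| ∂μ ≤ ∫ t, (5 * θ - two U s t) ∂μ := by
        refine integral_mono Integrable.of_finite Integrable.of_finite fun t => ?_
        show |two U s t| ≤ 5 * θ - two U s t
        rw [htwo, abs_le]
        have h3 := hup s t
        constructor <;> linarith
      have h3 : ∫ t, (5 * θ - two U s t) ∂μ = 5 * θ := by
        rw [integral_sub Integrable.of_finite Integrable.of_finite, hzero]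
        simp
      linarith
    · intro e
      induction e with
      | h a b =>
        rw [hU, UU_mk]
        have h3 := hup a b
        linarith
  -- logarithmic quantities
  have hrpos : ∀ x, 0 < rr W x := rr_pos hd
  have hpir : ∀ x, pi0 W x = rr W x / Fintype.card X := by
    intro x; unfold rr; field_simp
  have hsumr : ∑ x, (rr W x - 1) = 0 := by
    rw [sum_sub_distrib]
    have : ∑ x, rr W x = Fintype.card X := by
      unfold rr
      rw [← mul_sum, sum_pi0 hd, mul_one]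
    rw [this]; simp
  have hlog2 : ∫ s, Real.log (rr W s) ^ 2 ∂μ ≤ 11 / 5 * κ₀ := by
    rw [hκ, hone, hone]
    have h2 : ∀ x, pi0 W x * Real.log (rr W x) ^ 2 ≤
        11 / 5 * (pi0 W x * Real.log (rr W x)) - 11 / 5 * ((rr W x - 1) / Fintype.card X) := by
      intro x
      have h3 := log_sq_le (rr_ge h1 hθ0 hθ hmin x) (rr_le h1 hθ0 hθ hmin x)
      rw [hpir]
      have h4 := div_le_div_of_nonneg_right h3 hn.le
      calc rr W x / Fintype.card X * Real.log (rr W x) ^ 2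
          = rr W x * Real.log (rr W x) ^ 2 / Fintype.card X := by ring
        _ ≤ _ := h4
        _ = _ := by ring
    calc ∑ x, pi0 W x * Real.log (rr W x) ^ 2
        ≤ ∑ x, (11 / 5 * (pi0 W x * Real.log (rr W x)) -
            11 / 5 * ((rr W x - 1) / Fintype.card X)) := sum_le_sum fun x _ => h2 x
      _ = 11 / 5 * ∑ x, pi0 W x * Real.log (rr W x) := by
          rw [sum_sub_distrib, ← mul_sum, ← mul_sum, ← sum_div, hsumr]; simp
  have hκ0 : 0 ≤ κ₀ := by
    have h2 : 0 ≤ ∫ s, Real.log (rr W s) ^ 2 ∂μ := integral_nonneg fun s => sq_nonneg _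
    linarith
  have hg0 : ∫ s, (Real.log (rr W s) - κ₀) ∂μ = 0 := by
    rw [integral_sub Integrable.of_finite Integrable.of_finite, ← hκ]
    simp
  have hg2 : ∫ s, (Real.log (rr W s) - κ₀) ^ 2 ∂μ ≤ 11 / 5 * κ₀ := by
    have h2 : ∀ s, (Real.log (rr W s) - κ₀) ^ 2 =
        Real.log (rr W s) ^ 2 - 2 * κ₀ * (Real.log (rr W s) - κ₀) - κ₀ ^ 2 := by
      intro s; ring
    simp_rw [h2]
    rw [integral_sub Integrable.of_finite Integrable.of_finite,
      integral_sub Integrable.of_finite Integrable.of_finite, integral_const_mul, hg0]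
    simp only [integral_const, probReal_univ, one_smul, mul_zero, sub_zero]
    nlinarith [sq_nonneg κ₀]
  refine ⟨μ, U, fun s => Real.log (rr W s) - κ₀, κ₀, hμ, hker, bm_of_finite _, hg0, hκ0, hg2, ?_⟩
  -- the inequality
  intro Z hZ hZ0
  set P : (V → X) → ℝ := fun z => ∏ e ∈ H.edgeFinset, (1 + U (e.map z)) with hP
  have hP0 : ∀ z, 0 ≤ P z := by
    intro z
    refine prod_nonneg fun e _ => ?_
    rw [hU, ← ev_eq_UU]
    induction e with
    | h a b =>
      rw [ev, Sym2.lift_mk]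
      exact KK_nonneg h0 hd _ _
  have hpden : pden W = tot W / (Fintype.card X : ℝ) ^ 2 := rfl
  have hpd0 : 0 < pden W := by rw [hpden]; positivity
  -- step 1
  have hr1 : ∫ s, (rr W s)⁻¹ ∂μ = 1 := by
    rw [hone]
    have h2 : ∀ z, pi0 W z * (rr W z)⁻¹ = (Fintype.card X : ℝ)⁻¹ := by
      intro z
      rw [hpir]
      have := (hrpos z).ne'
      field_simp
    simp_rw [h2]
    rw [sum_const, card_univ, nsmul_eq_mul, mul_inv_cancel₀ hn.ne']
  have ht : tden H W hs = pden W ^ H.edgeFinset.card *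
      ∫ z, (∏ v, rr W (z v) ^ (H.degree v - 1)) * P z ∂(piM V μ) := by
    rw [← iso_out H U (rr W) hrpos hr1, hpi]
    unfold tden
    have h2 : ∀ z : V → X, ∏ e ∈ H.edgeFinset, ev W hs z e =
        (pden W ^ H.edgeFinset.card * (Fintype.card X : ℝ) ^ Fintype.card V) *
          ((∏ v, pi0 W (z v)) * ((∏ v, rr W (z v) ^ H.degree v / rr W (z v)) *
            ∏ e ∈ H.edgeFinset, (1 + U (e.map z)))) := by
      intro z
      rw [prod_ev_eq H hs hd z, hpden]
      congr 3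
      exact prod_congr rfl fun e _ => ev_eq_UU W hs z e
    simp_rw [h2]
    rw [← mul_sum]
    have h3 : (Fintype.card X : ℝ) ^ Fintype.card V ≠ 0 := (pow_pos hn _).ne'
    field_simp
  -- step 2: Jensen
  have hJ := jensen_exp (univ : Finset (V → X)) (fun z => (∏ v, pi0 W (z v)) * P z)
    (fun z => ∑ v, ((H.degree v - 1 : ℕ) : ℝ) * Real.log (rr W (z v)))
    (fun z _ => mul_nonneg (prod_nonneg fun v _ => (pi0_pos hd _).le) (hP0 z))
    (by rw [← hpi, ← hZ]; exact hZ0)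
  rw [← hpi P, ← hZ] at hJ
  have hexp : ∀ z : V → X, (∏ v, pi0 W (z v)) * P z *
      Real.exp (∑ v, ((H.degree v - 1 : ℕ) : ℝ) * Real.log (rr W (z v))) =
      (∏ v, pi0 W (z v)) * ((∏ v, rr W (z v) ^ (H.degree v - 1)) * P z) := by
    intro z
    rw [Real.exp_sum]
    have h2 : ∀ v, Real.exp (((H.degree v - 1 : ℕ) : ℝ) * Real.log (rr W (z v))) =
        rr W (z v) ^ (H.degree v - 1) := by
      intro v
      rw [mul_comm, Real.exp_mul, Real.exp_log (hrpos _), Real.rpow_natCast]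
    simp_rw [h2]
    ring
  simp_rw [hexp] at hJ
  rw [← hpi (fun z => (∏ v, rr W (z v) ^ (H.degree v - 1)) * P z)] at hJ
  -- step 3: the mean
  have hmean : (∑ z : V → X, (∏ v, pi0 W (z v)) * P z *
      (∑ v, ((H.degree v - 1 : ℕ) : ℝ) * Real.log (rr W (z v)))) / Z =
      ∑ v, ((H.degree v - 1 : ℕ) : ℝ) * (κ₀ +
          (∫ z, (Real.log (rr W (z v)) - κ₀) * P z ∂(piM V μ)) / Z) := by
    have h2 : ∀ v : V, ∫ z, (Real.log (rr W (z v)) - κ₀) * P z ∂(piM V μ) =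
        (∑ z : V → X, (∏ v, pi0 W (z v)) * P z * Real.log (rr W (z v))) - κ₀ * Z := by
      intro v
      rw [hZ, hpi, hpi, mul_sum, ← sum_sub_distrib]
      refine sum_congr rfl fun z _ => ?_
      ring
    simp_rw [h2]
    have h3 : ∀ v : V, ((H.degree v - 1 : ℕ) : ℝ) * (κ₀ +
        ((∑ z : V → X, (∏ v, pi0 W (z v)) * P z * Real.log (rr W (z v))) - κ₀ * Z) / Z) =
        (((H.degree v - 1 : ℕ) : ℝ) *
          (∑ z : V → X, (∏ v, pi0 W (z v)) * P z * Real.log (rr W (z v)))) / Z := by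
      intro v
      have := hZ0.ne'
      field_simp
      ring
    simp_rw [h3]
    rw [← sum_div]
    congr 1
    simp_rw [mul_sum]
    rw [sum_comm]
    refine sum_congr rfl fun v _ => sum_congr rfl fun z _ => ?_
    ring
  rw [hmean] at hJ
  rw [ht, mul_assoc]
  exact mul_le_mul_of_nonneg_left hJ (pow_pos hpd0 _).le

end Vale.Agent.P050.R2.H111

namespace Vale.Agent.P050.Dense

open Vale.Agent.P050

theorem kernel_reduction {V X : Type} [Fintype V] [DecidableEq V] [Fintype X] [DecidableEq X]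
    [Nonempty X] (W : X → X → ℝ) (hs : ∀ x y, W x y = W y x) (h0 : ∀ x y, 0 ≤ W x y)
    (h1 : ∀ x y, W x y ≤ 1) (H : SimpleGraph V) [DecidableRel H.Adj]
    {θ : ℝ} (hθ0 : 0 < θ) (hθ : θ ≤ 1 / 100)
    (hmin : ∀ x, (1 - θ) * Fintype.card X ≤ ∑ y, W x y) :
    ∃ (m : MeasurableSpace X) (μ : Measure X) (U : Sym2 X → ℝ) (g : X → ℝ) (κ₀ : ℝ),
      IsProbabilityMeasure μ ∧ Ker μ U (5 * θ) (3 * θ) ∧ BM g ∧ ∫ s, g s ∂μ = 0 ∧ 0 ≤ κ₀ ∧
      ∫ s, g s ^ 2 ∂μ ≤ 11 / 5 * κ₀ ∧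
      ∀ Z : ℝ, Z = ∫ z, ∏ e ∈ H.edgeFinset, (1 + U (e.map z)) ∂(piM V μ) → 0 < Z →
        pden W ^ H.edgeFinset.card * Z * Real.exp (∑ v, ((H.degree v - 1 : ℕ) : ℝ) * (κ₀ +
          (∫ z, g (z v) * ∏ e ∈ H.edgeFinset, (1 + U (e.map z)) ∂(piM V μ)) / Z))
          ≤ tden H W hs := by
  letI m : MeasurableSpace X := ⊤
  haveI : MeasurableSingletonClass X := ⟨fun _ => trivial⟩
  exact ⟨m, Vale.Agent.P050.R2.H111.red_aux W hs h0 h1 H hθ0 hθ hmin⟩

end Vale.Agent.P050.Dense
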