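import Vale.Agent.P050.R2.H300.Defs
import Mathlib.Analysis.Convex.Integral

set_option linter.all false

/-!
M11: from finite kernels to measurable kernels, by sampling.
-/

open MeasureTheory Finset Function

namespace Vale.Agent.P050.R2.H111

open Vale.Agent.P050 Vale.Agent.P050.Dense

section

variable {V : Type*} [Fintype V] [DecidableEq V] {Ω : Type*} [MeasurableSpace Ω]
  (μ : Measure Ω) [IsProbabilityMeasure μ]

theorem mp_inj {N : ℕ} {φ : V → Fin N} (hφ : Injective φ) :
    MeasurePreserving (fun (z : Fin N → Ω) (v : V) => z (φ v)) (piM (Fin N) μ) (piM V μ) := by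
  have hm : Measurable (fun (z : Fin N → Ω) (v : V) => z (φ v)) :=
    measurable_pi_lambda _ fun v => measurable_pi_apply (φ v)
  refine ⟨hm, ?_⟩
  symm
  refine Measure.pi_eq fun s hs => ?_
  rw [Measure.map_apply hm (MeasurableSet.univ_pi hs)]
  classical
  set t : Fin N → Set Ω := fun i => if h : ∃ v, φ v = i then s h.choose else Set.univ with ht
  have ht' : ∀ v, t (φ v) = s v := by
    intro v
    have h : ∃ v', φ v' = φ v := ⟨v, rfl⟩
    simp only [ht]
    rw [dif_pos h]
    rw [hφ h.choose_spec]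
  have hpre : (fun (z : Fin N → Ω) (v : V) => z (φ v)) ⁻¹' Set.univ.pi s = Set.univ.pi t := by
    ext z
    simp only [Set.mem_preimage, Set.mem_pi, Set.mem_univ, true_implies]
    constructor
    · intro h i
      by_cases hi : ∃ v, φ v = i
      · obtain ⟨v, rfl⟩ := hi
        rw [ht']; exact h v
      · simp only [ht]; rw [dif_neg hi]; trivial
    · intro h v
      rw [← ht']; exact h _
  rw [hpre, Measure.pi_pi]
  have h1 : ∏ i, μ (t i) = ∏ i ∈ univ.image φ, μ (t i) := by
    symm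
    refine Finset.prod_subset (Finset.subset_univ _) fun i _ hi => ?_
    have hi' : ¬ ∃ v, φ v = i := by simpa using hi
    simp only [ht]; rw [dif_neg hi', measure_univ]
  rw [h1, Finset.prod_image (fun a _ b _ h => hφ h)]
  exact Finset.prod_congr rfl fun v _ => by rw [ht']

/-- the sampled kernel -/
noncomputable def smp (W : Ω → Ω → ℝ) {N : ℕ} (x : Fin N → Ω) (i j : Fin N) : ℝ :=
  if i = j then 1 else W (x i) (x j)

variable {W : Ω → Ω → ℝ} {N : ℕ}

lemma smp_symm (hW : ∀ s t, W s t = W t s) (x : Fin N → Ω) (i j : Fin N) :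
    smp W x i j = smp W x j i := by
  unfold smp
  by_cases h : i = j
  · rw [if_pos h, if_pos h.symm]
  · rw [if_neg h, if_neg (Ne.symm h), hW]

lemma smp_nonneg (h0 : ∀ s t, 0 ≤ W s t) (x : Fin N → Ω) (i j : Fin N) : 0 ≤ smp W x i j := by
  unfold smp; split_ifs
  · exact zero_le_one
  · exact h0 _ _

lemma smp_le (h1 : ∀ s t, W s t ≤ 1) (x : Fin N → Ω) (i j : Fin N) : smp W x i j ≤ 1 := by
  unfold smp; split_ifs
  · exact le_rfl
  · exact h1 _ _

lemma bm_unc (hm : Measurable (uncurry W)) (h0 : ∀ s t, 0 ≤ W s t) (h1 : ∀ s t, W s t ≤ 1) :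
    BM (uncurry W) :=
  ⟨hm, 1, fun z => by
    rw [abs_le]
    have a := h0 z.1 z.2
    have b := h1 z.1 z.2
    constructor
    · show -1 ≤ W z.1 z.2
      linarith
    · exact b⟩

lemma bm_smp (hm : Measurable (uncurry W)) (h0 : ∀ s t, 0 ≤ W s t) (h1 : ∀ s t, W s t ≤ 1)
    (i j : Fin N) : BM (fun x : Fin N → Ω => smp W x i j) := by
  unfold smp
  by_cases h : i = j
  · simp only [if_pos h]; exact BM.const 1
  · simp only [if_neg h]
    exact (bm_unc hm h0 h1).comp (g := fun x : Fin N → Ω => (x i, x j))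
      ((measurable_pi_apply i).prodMk (measurable_pi_apply j))

lemma int_smp (hm : Measurable (uncurry W)) (h0 : ∀ s t, 0 ≤ W s t) (h1 : ∀ s t, W s t ≤ 1)
    {i j : Fin N} (hij : i ≠ j) :
    ∫ x, smp W x i j ∂(piM (Fin N) μ) = ∫ s, ∫ t, W s t ∂μ ∂μ := by
  unfold smp
  simp only [if_neg hij]
  exact integral_eval2 μ hij (bm_unc hm h0 h1)

lemma int_smp2 (hm : Measurable (uncurry W)) (h0 : ∀ s t, 0 ≤ W s t) (h1 : ∀ s t, W s t ≤ 1)
    (i j k l : Fin N) :
    ∫ x, smp W x i j * smp W x k l ∂(piM (Fin N) μ) ≤ (∫ s, ∫ t, W s t ∂μ ∂μ) ^ 2 +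
      ((if i = j then 1 else 0) + (if i = k then 1 else 0) + (if i = l then 1 else 0) +
        (if j = k then 1 else 0) + (if j = l then 1 else 0) + (if k = l then 1 else 0)) := by
  by_cases h : i = j ∨ i = k ∨ i = l ∨ j = k ∨ j = l ∨ k = l
  · have a : ∫ x, smp W x i j * smp W x k l ∂(piM (Fin N) μ) ≤ 1 := by
      have b : ∫ x, smp W x i j * smp W x k l ∂(piM (Fin N) μ) ≤ ∫ _x, (1:ℝ) ∂(piM (Fin N) μ) := by
        refine integral_mono (((bm_smp hm h0 h1 i j).mul (bm_smp hm h0 h1 k l)).integrable _)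
          (integrable_const _) fun x => ?_
        exact mul_le_one₀ (smp_le h1 x i j) (smp_nonneg h0 x k l) (smp_le h1 x k l)
      simpa using b
    have c : (1:ℝ) ≤ ((if i = j then 1 else 0) + (if i = k then 1 else 0) +
        (if i = l then 1 else 0) + (if j = k then 1 else 0) + (if j = l then 1 else 0) +
        (if k = l then 1 else 0)) := by
      have d : ∀ P : Prop, [Decidable P] → (0:ℝ) ≤ (if P then 1 else 0) := by
        intro P _; split_ifs <;> norm_num
      have d1 := d (i = j)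
      have d2 := d (i = k)
      have d3 := d (i = l)
      have d4 := d (j = k)
      have d5 := d (j = l)
      have d6 := d (k = l)
      rcases h with h | h | h | h | h | h
      · rw [if_pos h]; linarith
      · rw [if_pos h]; linarith
      · rw [if_pos h]; linarith
      · rw [if_pos h]; linarith
      · rw [if_pos h]; linarith
      · rw [if_pos h]; linarith
    have e := sq_nonneg (∫ s, ∫ t, W s t ∂μ ∂μ)
    linarith
  · push Not at h
    obtain ⟨hij, hik, hil, hjk, hjl, hkl⟩ := h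
    rw [if_neg hij, if_neg hik, if_neg hil, if_neg hjk, if_neg hjl, if_neg hkl]
    have a := integral_mul_of_ind μ ({i, j} : Finset (Fin N)) (fun x => smp W x i j)
      (fun x => smp W x k l) (bm_smp hm h0 h1 i j) (bm_smp hm h0 h1 k l)
      (by
        intro v hv x y
        simp only [mem_insert, mem_singleton, not_or] at hv
        simp only [smp]
        rw [update_of_ne (Ne.symm hv.1), update_of_ne (Ne.symm hv.2)])
      (by
        intro v hv x y
        simp only [mem_insert, mem_singleton] at hv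
        simp only [smp]
        have e1 : k ≠ v := by
          rcases hv with rfl | rfl
          · exact Ne.symm hik
          · exact Ne.symm hjk
        have e2 : l ≠ v := by
          rcases hv with rfl | rfl
          · exact Ne.symm hil
          · exact Ne.symm hjl
        rw [update_of_ne e1, update_of_ne e2])
    rw [a, int_smp μ hm h0 h1 hij, int_smp μ hm h0 h1 hkl]
    apply le_of_eq
    ring

/-- sum over pairs -/
noncomputable def SS (W : Ω → Ω → ℝ) (x : Fin N → Ω) : ℝ := ∑ i, ∑ j, smp W x i j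

lemma bm_SS (hm : Measurable (uncurry W)) (h0 : ∀ s t, 0 ≤ W s t) (h1 : ∀ s t, W s t ≤ 1) :
    BM (fun x : Fin N → Ω => SS W x) :=
  BM.finsum _ fun i _ => BM.finsum _ fun j _ => bm_smp hm h0 h1 i j

lemma int_SS (hm : Measurable (uncurry W)) (h0 : ∀ s t, 0 ≤ W s t) (h1 : ∀ s t, W s t ≤ 1) :
    (N : ℝ) ^ 2 * (∫ s, ∫ t, W s t ∂μ ∂μ) ≤ ∫ x, SS W x ∂(piM (Fin N) μ) := by
  set p := ∫ s, ∫ t, W s t ∂μ ∂μ with hp
  have hp1 : p ≤ 1 := by
    have a : ∀ s, ∫ t, W s t ∂μ ≤ 1 := by
      intro s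
      have b : ∫ t, W s t ∂μ ≤ ∫ _t, (1:ℝ) ∂μ :=
        integral_mono (((bm_unc hm h0 h1).comp (g := fun t : Ω => (s, t))
          measurable_prodMk_left).integrable _) (integrable_const _) fun t => h1 s t
      simpa using b
    have c : p ≤ ∫ _s, (1:ℝ) ∂μ :=
      integral_mono (((bm_unc hm h0 h1).integral_right μ).integrable _) (integrable_const _) a
    simpa using c
  have h2 : ∫ x, SS W x ∂(piM (Fin N) μ) =
      ∑ i : Fin N, ∑ j : Fin N, ∫ x, smp W x i j ∂(piM (Fin N) μ) := by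
    unfold SS
    rw [integral_finsetSum _ fun i _ =>
      (BM.finsum _ fun j _ => bm_smp hm h0 h1 i j).integrable _]
    exact sum_congr rfl fun i _ => integral_finsetSum _ fun j _ => (bm_smp hm h0 h1 i j).integrable _
  rw [h2]
  have h3 : ∀ i j : Fin N, p ≤ ∫ x, smp W x i j ∂(piM (Fin N) μ) := by
    intro i j
    by_cases h : i = j
    · subst h
      simp only [smp, if_true]
      simpa using hp1
    · exact (int_smp μ hm h0 h1 h).ge
  calc (N : ℝ) ^ 2 * p = ∑ _i : Fin N, ∑ _j : Fin N, p := by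
        simp; ring
    _ ≤ _ := sum_le_sum fun i _ => sum_le_sum fun j _ => h3 i j

lemma int_SS2 (hm : Measurable (uncurry W)) (h0 : ∀ s t, 0 ≤ W s t) (h1 : ∀ s t, W s t ≤ 1) :
    ∫ x, SS W x ^ 2 ∂(piM (Fin N) μ) ≤
      (N : ℝ) ^ 4 * (∫ s, ∫ t, W s t ∂μ ∂μ) ^ 2 + 6 * (N : ℝ) ^ 3 := by
  set p := ∫ s, ∫ t, W s t ∂μ ∂μ with hp
  have h2 : ∀ x : Fin N → Ω, SS W x ^ 2 =
      ∑ i, ∑ j, ∑ k, ∑ l, smp W x i j * smp W x k l := by
    intro x
    unfold SS
    rw [sq, sum_mul]
    refine sum_congr rfl fun i _ => ?_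
    rw [sum_mul]
    refine sum_congr rfl fun j _ => ?_
    rw [mul_sum]
    refine sum_congr rfl fun k _ => ?_
    rw [mul_sum]
  have bm4 : ∀ i j k l : Fin N, BM (fun x : Fin N → Ω => smp W x i j * smp W x k l) :=
    fun i j k l => (bm_smp hm h0 h1 i j).mul (bm_smp hm h0 h1 k l)
  have h3 : ∫ x, SS W x ^ 2 ∂(piM (Fin N) μ) =
      ∑ i, ∑ j, ∑ k, ∑ l, ∫ x, smp W x i j * smp W x k l ∂(piM (Fin N) μ) := by
    simp only [h2]
    rw [integral_finsetSum _ fun i _ => (BM.finsum _ fun j _ => BM.finsum _ fun k _ =>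
      BM.finsum _ fun l _ => bm4 i j k l).integrable _]
    refine sum_congr rfl fun i _ => ?_
    rw [integral_finsetSum _ fun j _ => (BM.finsum _ fun k _ =>
      BM.finsum _ fun l _ => bm4 i j k l).integrable _]
    refine sum_congr rfl fun j _ => ?_
    rw [integral_finsetSum _ fun k _ => (BM.finsum _ fun l _ => bm4 i j k l).integrable _]
    refine sum_congr rfl fun k _ => ?_
    exact integral_finsetSum _ fun l _ => (bm4 i j k l).integrable _
  rw [h3]
  calc ∑ i, ∑ j, ∑ k, ∑ l, ∫ x, smp W x i j * smp W x k l ∂(piM (Fin N) μ)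
      ≤ ∑ i : Fin N, ∑ j : Fin N, ∑ k : Fin N, ∑ l : Fin N, (p ^ 2 +
      ((if i = j then 1 else 0) + (if i = k then 1 else 0) + (if i = l then 1 else 0) +
        (if j = k then 1 else 0) + (if j = l then 1 else 0) + (if k = l then 1 else 0))) :=
        sum_le_sum fun i _ => sum_le_sum fun j _ => sum_le_sum fun k _ => sum_le_sum fun l _ =>
          int_smp2 μ hm h0 h1 i j k l
    _ = (N : ℝ) ^ 4 * p ^ 2 + 6 * (N : ℝ) ^ 3 := by
        simp only [sum_add_distrib, sum_const, card_univ, Fintype.card_fin, nsmul_eq_mul,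
          sum_ite_eq, sum_ite_eq', mem_univ, if_true, mul_ite, mul_one, mul_zero]
        ring

lemma card_inj : ((univ.filter fun φ : V → Fin N => Injective φ).card : ℝ) =
    (N.descFactorial (Fintype.card V) : ℝ) := by
  classical
  have h1 : (univ.filter fun φ : V → Fin N => Injective φ).card = Fintype.card (V ↪ Fin N) := by
    rw [← Fintype.card_subtype]
    exact Fintype.card_congr (Equiv.subtypeInjectiveEquivEmbedding V (Fin N))
  rw [h1, Fintype.card_embedding_eq, Fintype.card_fin]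

lemma card_ninj : ((univ.filter fun φ : V → Fin N => ¬ Injective φ).card : ℝ) =
    (N : ℝ) ^ Fintype.card V - (N.descFactorial (Fintype.card V) : ℝ) := by
  classical
  have h3 := card_filter_add_card_filter_not (s := (univ : Finset (V → Fin N)))
    (fun φ : V → Fin N => Injective φ)
  rw [card_univ, Fintype.card_fun, Fintype.card_fin] at h3
  have h4 : ((univ.filter fun φ : V → Fin N => Injective φ).card : ℝ) +
      ((univ.filter fun φ : V → Fin N => ¬ Injective φ).card : ℝ) =
      (N : ℝ) ^ Fintype.card V := by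
    exact_mod_cast h3
  rw [card_inj] at h4
  linarith

lemma tendsto_desc (k : ℕ) : Filter.Tendsto
    (fun N : ℕ => (N.descFactorial k : ℝ) / (N : ℝ) ^ k) Filter.atTop (nhds 1) := by
  induction k with
  | zero => simp
  | succ k ih =>
    have h2 : Filter.Tendsto (fun N : ℕ => 1 - (k : ℝ) * (1 / (N : ℝ))) Filter.atTop
        (nhds (1 - k * 0)) :=
      tendsto_const_nhds.sub (tendsto_one_div_atTop_nhds_zero_nat.const_mul _)
    have h3 := h2.mul ih
    simp only [mul_zero, sub_zero, mul_one] at h3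
    refine h3.congr' ?_
    filter_upwards [Filter.eventually_gt_atTop k] with N hN
    have hN0 : (N : ℝ) ≠ 0 := by
      have : 0 < N := lt_of_le_of_lt (Nat.zero_le k) hN
      exact_mod_cast this.ne'
    rw [Nat.descFactorial_succ, Nat.cast_mul, Nat.cast_sub hN.le, pow_succ]
    field_simp

variable (H : SimpleGraph V) [DecidableRel H.Adj] (hW : ∀ s t, W s t = W t s)

lemma ev_nonneg' {X : Type*} {K : X → X → ℝ} (hK : ∀ s t, K s t = K t s)
    (h0 : ∀ s t, 0 ≤ K s t) (z : V → X) (e : Sym2 V) : 0 ≤ ev K hK z e := by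
  induction e with
  | h a b => rw [ev, Sym2.lift_mk]; exact h0 _ _

lemma ev_le' {X : Type*} {K : X → X → ℝ} (hK : ∀ s t, K s t = K t s)
    (h1 : ∀ s t, K s t ≤ 1) (z : V → X) (e : Sym2 V) : ev K hK z e ≤ 1 := by
  induction e with
  | h a b => rw [ev, Sym2.lift_mk]; exact h1 _ _

lemma bm_ev {Θ : Type*} [MeasurableSpace Θ] {X : Type*} {K : Θ → X → X → ℝ}
    (hK : ∀ θ s t, K θ s t = K θ t s) (hb : ∀ s t, BM (fun θ => K θ s t)) (z : V → X)
    (e : Sym2 V) : BM (fun θ => ev (K θ) (hK θ) z e) := by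
  induction e with
  | h a b => simp only [ev, Sym2.lift_mk]; exact hb _ _

lemma bm_ev2 (hm : Measurable (uncurry W)) (h0 : ∀ s t, 0 ≤ W s t) (h1 : ∀ s t, W s t ≤ 1)
    (e : Sym2 V) : BM (fun x : V → Ω => ev W hW x e) := by
  induction e with
  | h a b =>
    simp only [ev, Sym2.lift_mk]
    exact (bm_unc hm h0 h1).comp (g := fun x : V → Ω => (x a, x b))
      ((measurable_pi_apply a).prodMk (measurable_pi_apply b))

/-- the mean of the density of the sample -/
lemma int_tden (hm : Measurable (uncurry W)) (h0 : ∀ s t, 0 ≤ W s t) (h1 : ∀ s t, W s t ≤ 1)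
    (hN : 0 < N) :
    ∫ x : Fin N → Ω, tden H (smp W x) (smp_symm hW x) ∂(piM (Fin N) μ) ≤
      (∫ x, ∏ e ∈ H.edgeFinset, ev W hW x e ∂(piM V μ)) +
        (1 - (N.descFactorial (Fintype.card V) : ℝ) / (N : ℝ) ^ Fintype.card V) := by
  classical
  have hNr : (0 : ℝ) < N := by exact_mod_cast hN
  set T := ∫ x, ∏ e ∈ H.edgeFinset, ev W hW x e ∂(piM V μ) with hT
  have hT0 : 0 ≤ T := integral_nonneg fun x => prod_nonneg fun e _ => ev_nonneg' hW h0 x e
  have hbm : ∀ φ : V → Fin N, BM (fun x : Fin N → Ω =>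
      ∏ e ∈ H.edgeFinset, ev (smp W x) (smp_symm hW x) φ e) := fun φ =>
    BM.finprod _ fun e _ => bm_ev (fun x => smp_symm hW x) (fun s t => bm_smp hm h0 h1 s t) φ e
  have hsplit : ∫ x : Fin N → Ω, tden H (smp W x) (smp_symm hW x) ∂(piM (Fin N) μ) =
      (∑ φ : V → Fin N, ∫ x : Fin N → Ω, ∏ e ∈ H.edgeFinset, ev (smp W x) (smp_symm hW x) φ e
        ∂(piM (Fin N) μ)) / (N : ℝ) ^ Fintype.card V := by
    unfold tden
    rw [Fintype.card_fin, integral_div, integral_finsetSum _ fun φ _ => (hbm φ).integrable _]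
  have hφ : ∀ φ : V → Fin N, ∫ x : Fin N → Ω, ∏ e ∈ H.edgeFinset,
      ev (smp W x) (smp_symm hW x) φ e ∂(piM (Fin N) μ) ≤ (if Injective φ then T else 1) := by
    intro φ
    split_ifs with h
    · have h3 := mp_inj μ h
      have h4 : ∀ x : Fin N → Ω, ∏ e ∈ H.edgeFinset, ev (smp W x) (smp_symm hW x) φ e =
          ∏ e ∈ H.edgeFinset, ev W hW (fun v => x (φ v)) e := by
        intro x
        refine prod_congr rfl fun e he => ?_
        induction e with
        | h a b =>
          rw [SimpleGraph.mem_edgeFinset, SimpleGraph.mem_edgeSet] at he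
          simp only [ev, Sym2.lift_mk, smp]
          rw [if_neg (fun hab => he.ne (h hab))]
      simp only [h4]
      apply le_of_eq
      rw [hT, ← h3.map_eq, integral_map h3.measurable.aemeasurable]
      exact (BM.finprod _ fun e _ => bm_ev2 hW hm h0 h1 e).meas.aestronglyMeasurable
    · have b : ∫ x : Fin N → Ω, ∏ e ∈ H.edgeFinset,
          ev (smp W x) (smp_symm hW x) φ e ∂(piM (Fin N) μ) ≤ ∫ _x, (1:ℝ) ∂(piM (Fin N) μ) := by
        refine integral_mono ((hbm φ).integrable _) (integrable_const _) fun x => ?_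
        exact prod_le_one (fun e _ => ev_nonneg' _ (smp_nonneg h0 x) φ e)
          (fun e _ => ev_le' _ (smp_le h1 x) φ e)
      simpa using b
  rw [hsplit, div_le_iff₀ (pow_pos hNr _)]
  calc ∑ φ : V → Fin N, ∫ x : Fin N → Ω, ∏ e ∈ H.edgeFinset,
        ev (smp W x) (smp_symm hW x) φ e ∂(piM (Fin N) μ)
      ≤ ∑ φ : V → Fin N, (if Injective φ then T else 1) := sum_le_sum fun φ _ => hφ φ
    _ = (N.descFactorial (Fintype.card V) : ℝ) * T +
        ((N : ℝ) ^ Fintype.card V - (N.descFactorial (Fintype.card V) : ℝ)) * 1 := by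
        rw [sum_ite, sum_const, sum_const, nsmul_eq_mul, nsmul_eq_mul, card_inj, card_ninj]
    _ ≤ _ := by
        have h5 : (N.descFactorial (Fintype.card V) : ℝ) ≤ (N : ℝ) ^ Fintype.card V := by
          exact_mod_cast Nat.descFactorial_le_pow N _
        have h6 : (1 - (N.descFactorial (Fintype.card V) : ℝ) / (N : ℝ) ^ Fintype.card V) *
            (N : ℝ) ^ Fintype.card V = (N : ℝ) ^ Fintype.card V -
              (N.descFactorial (Fintype.card V) : ℝ) := by
          have := (pow_pos hNr (Fintype.card V)).ne'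
          field_simp
        rw [add_mul, h6]
        nlinarith

theorem meas_aux {δ δ' : ℝ} (hδ : δ < δ')
    (hfin : ∀ (n : ℕ) (W : Fin n → Fin n → ℝ) (hs : ∀ x y, W x y = W y x), 0 < n →
      (∀ x y, 0 ≤ W x y) → (∀ x y, W x y ≤ 1) → 1 - δ' ≤ pden W →
      pden W ^ H.edgeFinset.card ≤ tden H W hs)
    (hm : Measurable (uncurry W)) (h0 : ∀ s t, 0 ≤ W s t) (h1 : ∀ s t, W s t ≤ 1)
    (hp : 1 - δ ≤ ∫ s, ∫ t, W s t ∂μ ∂μ) :
    (∫ s, ∫ t, W s t ∂μ ∂μ) ^ H.edgeFinset.card ≤
      ∫ x, ∏ e ∈ H.edgeFinset, ev W hW x e ∂(piM V μ) := by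
  set p := ∫ s, ∫ t, W s t ∂μ ∂μ with hpd
  set m := H.edgeFinset.card with hmd
  set T := ∫ x, ∏ e ∈ H.edgeFinset, ev W hW x e ∂(piM V μ) with hT
  set γ := δ' - δ with hγ
  have hγ0 : 0 < γ := by rw [hγ]; linarith
  have hp0 : 0 ≤ p := integral_nonneg fun s => integral_nonneg fun t => h0 s t
  have key : ∀ N : ℕ, 0 < N → p ^ m - (6 / γ ^ 2) * (1 / (N : ℝ)) ≤
      T + (1 - (N.descFactorial (Fintype.card V) : ℝ) / (N : ℝ) ^ Fintype.card V) := by
    intro N hN
    have hNr : (0 : ℝ) < N := by exact_mod_cast hN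
    refine le_trans ?_ (int_tden μ H hW hm h0 h1 hN)
    set A : (Fin N → Ω) → ℝ := fun x => pden (smp W x) with hA
    have hAS : ∀ x, A x = SS W x * ((N : ℝ) ^ 2)⁻¹ := by
      intro x
      simp only [hA, pden, SS, Fintype.card_fin, div_eq_mul_inv]
    have hbA : BM A := by
      have : A = fun x => SS W x * ((N : ℝ) ^ 2)⁻¹ := funext hAS
      rw [this]
      exact (bm_SS hm h0 h1).mul (BM.const _)
    have hA0 : ∀ x, 0 ≤ A x := by
      intro x
      rw [hAS]
      exact mul_nonneg (sum_nonneg fun i _ => sum_nonneg fun j _ => smp_nonneg h0 x i j)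
        (by positivity)
    have hA1 : ∀ x, A x ≤ 1 := by
      intro x
      rw [hAS, ← div_eq_mul_inv, div_le_one (by positivity)]
      calc SS W x ≤ ∑ _i : Fin N, ∑ _j : Fin N, (1:ℝ) :=
            sum_le_sum fun i _ => sum_le_sum fun j _ => smp_le h1 x i j
        _ = (N : ℝ) ^ 2 := by simp; ring
    have hEA : p ≤ ∫ x, A x ∂(piM (Fin N) μ) := by
      simp only [hAS]
      rw [integral_mul_const]
      have h2 := int_SS (N := N) μ hm h0 h1
      rw [← div_eq_mul_inv, le_div_iff₀ (by positivity), mul_comm]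
      exact h2
    have hEA2 : ∫ x, A x ^ 2 ∂(piM (Fin N) μ) ≤ p ^ 2 + 6 * (1 / (N : ℝ)) := by
      simp only [hAS, mul_pow]
      rw [integral_mul_const]
      have h2 := int_SS2 (N := N) μ hm h0 h1
      rw [inv_pow, ← div_eq_mul_inv, div_le_iff₀ (by positivity)]
      refine h2.trans (le_of_eq ?_)
      rw [← hpd]
      field_simp
    have hvar : ∫ x, (A x - p) ^ 2 ∂(piM (Fin N) μ) ≤ 6 * (1 / (N : ℝ)) := by
      have h2 : ∀ x, (A x - p) ^ 2 = A x ^ 2 - 2 * p * A x + p ^ 2 := by intro x; ring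
      simp only [h2]
      have i1 : Integrable (fun x => A x ^ 2) (piM (Fin N) μ) := (hbA.pow 2).integrable _
      have i2 : Integrable (fun x => 2 * p * A x) (piM (Fin N) μ) :=
        ((BM.const (2 * p)).mul hbA).integrable _
      have i3 : Integrable (fun x => A x ^ 2 - 2 * p * A x) (piM (Fin N) μ) := i1.sub i2
      have e1 := integral_add i3 (integrable_const (μ := piM (Fin N) μ) (p ^ 2))
      have e2 := integral_sub i1 i2
      rw [e1, e2, integral_const_mul]
      simp only [integral_const, probReal_univ, one_smul]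
      nlinarith
    have hJ : p ^ m ≤ ∫ x, A x ^ m ∂(piM (Fin N) μ) := by
      refine (pow_le_pow_left₀ hp0 hEA m).trans ?_
      exact (convexOn_pow m).map_integral_le (continuous_pow m).continuousOn isClosed_Ici
        (Filter.Eventually.of_forall fun z => hA0 z) (hbA.integrable _) ((hbA.pow m).integrable _)
    have hpt : ∀ x : Fin N → Ω, A x ^ m - (1 / γ ^ 2) * (A x - p) ^ 2 ≤
        tden H (smp W x) (smp_symm hW x) := by
      intro x
      by_cases h : 1 - δ' ≤ A x
      · have h2 := hfin N (smp W x) (smp_symm hW x) hN (smp_nonneg h0 x) (smp_le h1 x) h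
        have h3 : 0 ≤ (1 / γ ^ 2) * (A x - p) ^ 2 := by positivity
        have h4 : A x ^ m ≤ tden H (smp W x) (smp_symm hW x) := h2
        linarith
      · push Not at h
        have h2 : γ ≤ p - A x := by rw [hγ]; linarith
        have h3 : γ ^ 2 ≤ (A x - p) ^ 2 := by nlinarith
        have h4 : 1 ≤ (1 / γ ^ 2) * (A x - p) ^ 2 := by
          rw [one_div, ← div_eq_inv_mul, le_div_iff₀ (by positivity)]
          linarith
        have h5 : A x ^ m ≤ 1 := pow_le_one₀ (hA0 x) (hA1 x)
        have h6 : 0 ≤ tden H (smp W x) (smp_symm hW x) := by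
          unfold tden
          refine div_nonneg (sum_nonneg fun z _ => prod_nonneg fun e _ =>
            ev_nonneg' _ (smp_nonneg h0 x) z e) (by positivity)
        linarith
    have hbt : BM (fun x : Fin N → Ω => tden H (smp W x) (smp_symm hW x)) := by
      unfold tden
      simp only [div_eq_mul_inv]
      exact (BM.finsum _ fun φ _ => BM.finprod _ fun e _ =>
        bm_ev (fun x => smp_symm hW x) (fun s t => bm_smp hm h0 h1 s t) φ e).mul (BM.const _)
    have j1 : Integrable (fun x => A x ^ m) (piM (Fin N) μ) := (hbA.pow m).integrable _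
    have j2 : Integrable (fun x => (1 / γ ^ 2) * (A x - p) ^ 2) (piM (Fin N) μ) :=
      ((BM.const (1 / γ ^ 2)).mul ((hbA.sub (BM.const p)).pow 2)).integrable _
    have j3 : Integrable (fun x => A x ^ m - (1 / γ ^ 2) * (A x - p) ^ 2) (piM (Fin N) μ) :=
      j1.sub j2
    have h7 := integral_mono j3 (hbt.integrable _) hpt
    have h8 := integral_sub j1 j2
    rw [h8, integral_const_mul] at h7
    refine le_trans ?_ h7
    have h9 : (1 / γ ^ 2) * ∫ x, (A x - p) ^ 2 ∂(piM (Fin N) μ) ≤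
        (1 / γ ^ 2) * (6 * (1 / (N : ℝ))) := mul_le_mul_of_nonneg_left hvar (by positivity)
    have h10 : (1 / γ ^ 2) * (6 * (1 / (N : ℝ))) = (6 / γ ^ 2) * (1 / (N : ℝ)) := by ring
    linarith
  -- limits
  have hl1 : Filter.Tendsto (fun N : ℕ => p ^ m - (6 / γ ^ 2) * (1 / (N : ℝ))) Filter.atTop
      (nhds (p ^ m - (6 / γ ^ 2) * 0)) :=
    tendsto_const_nhds.sub (tendsto_one_div_atTop_nhds_zero_nat.const_mul _)
  have hl2 : Filter.Tendsto (fun N : ℕ => T + (1 - (N.descFactorial (Fintype.card V) : ℝ) /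
      (N : ℝ) ^ Fintype.card V)) Filter.atTop (nhds (T + (1 - 1))) :=
    tendsto_const_nhds.add (tendsto_const_nhds.sub (tendsto_desc _))
  have hfinal := le_of_tendsto_of_tendsto hl1 hl2 (by
    filter_upwards [Filter.eventually_gt_atTop 0] with N hN
    exact key N hN)
  simpa using hfinal

end

end Vale.Agent.P050.R2.H111

namespace Vale.Agent.P050.Dense

open Vale.Agent.P050 Vale.Agent.P050.R2.H111

theorem measurable_of_finite {V Ω : Type} [Fintype V] [DecidableEq V] [MeasurableSpace Ω]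
    (H : SimpleGraph V) [DecidableRel H.Adj] (μ : Measure Ω) [IsProbabilityMeasure μ]
    {δ δ' : ℝ} (hδ : δ < δ')
    (hfin : ∀ (n : ℕ) (W : Fin n → Fin n → ℝ) (hs : ∀ x y, W x y = W y x), 0 < n →
      (∀ x y, 0 ≤ W x y) → (∀ x y, W x y ≤ 1) → 1 - δ' ≤ pden W →
      pden W ^ H.edgeFinset.card ≤ tden H W hs)
    (W : Ω → Ω → ℝ) (hW : ∀ s t, W s t = W t s) (hm : Measurable (Function.uncurry W))
    (h01 : ∀ᵐ z ∂(μ.prod μ), 0 ≤ W z.1 z.2 ∧ W z.1 z.2 ≤ 1)
    (hp : 1 - δ ≤ ∫ s, ∫ t, W s t ∂μ ∂μ) :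
    (∫ s, ∫ t, W s t ∂μ ∂μ) ^ H.edgeFinset.card ≤
      ∫ x, ∏ e ∈ H.edgeFinset, ev W hW x e ∂(piM V μ) := by
  set W' : Ω → Ω → ℝ := fun s t => max 0 (min 1 (W s t)) with hW'
  have hs' : ∀ s t, W' s t = W' t s := fun s t => by simp only [hW']; rw [hW s t]
  have hm' : Measurable (Function.uncurry W') :=
    measurable_const.max (measurable_const.min hm)
  have h0' : ∀ s t, 0 ≤ W' s t := fun s t => le_max_left _ _
  have h1' : ∀ s t, W' s t ≤ 1 := fun s t => max_le zero_le_one (min_le_left _ _)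
  have heq : ∀ z : Ω × Ω, 0 ≤ W z.1 z.2 ∧ W z.1 z.2 ≤ 1 → W' z.1 z.2 = W z.1 z.2 := by
    rintro z ⟨a, b⟩
    simp only [hW']
    rw [min_eq_right b, max_eq_right a]
  have hae : ∀ᵐ z ∂(μ.prod μ), W' z.1 z.2 = W z.1 z.2 := h01.mono heq
  have hpe : ∫ s, ∫ t, W' s t ∂μ ∂μ = ∫ s, ∫ t, W s t ∂μ ∂μ := by
    have h2 := Measure.ae_ae_of_ae_prod hae
    refine integral_congr_ae (h2.mono fun s hs => ?_)
    exact integral_congr_ae hs
  set N : Set (Ω × Ω) := {z | ¬ (0 ≤ W z.1 z.2 ∧ W z.1 z.2 ≤ 1)} with hN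
  have hNm : MeasurableSet N := by
    have h2 : MeasurableSet {z : Ω × Ω | 0 ≤ Function.uncurry W z ∧ Function.uncurry W z ≤ 1} :=
      (measurableSet_le measurable_const hm).inter (measurableSet_le hm measurable_const)
    exact h2.compl
  have hN0 : (μ.prod μ) N = 0 := h01
  have hte : ∫ x, ∏ e ∈ H.edgeFinset, ev W' hs' x e ∂(piM V μ) =
      ∫ x, ∏ e ∈ H.edgeFinset, ev W hW x e ∂(piM V μ) := by
    have h2 : ∀ᵐ x ∂(piM V μ), ∀ e ∈ H.edgeFinset, ev W' hs' x e = ev W hW x e := by
      rw [Filter.eventually_all_finset]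
      intro e he
      induction e with
      | h a b =>
        rw [SimpleGraph.mem_edgeFinset, SimpleGraph.mem_edgeSet] at he
        refine (ae_eval2 μ he.ne hNm hN0).mono fun x hx => ?_
        simp only [ev, Sym2.lift_mk]
        refine heq (x a, x b) ?_
        by_contra h
        exact hx h
    refine integral_congr_ae (h2.mono fun x hx => ?_)
    exact Finset.prod_congr rfl hx
  have := meas_aux μ H hs' hδ hfin hm' h0' h1' (by rw [hpe]; exact hp)
  rwa [hpe, hte] at this

end Vale.Agent.P050.Dense
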