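import Vale.Agent.P050.R3.H904.RemoveRows

set_option linter.all false

/-!
Sharper form of M10: if `48 D ^ 2 ε ≤ 1`, all the rows of the minimiser have deficit at most
`16 ε` (instead of `12 D ε`).
-/

open Finset Function

namespace Vale.Agent.P050.MinRed

variable {V U : Type} [Fintype V] [DecidableEq V] [Fintype U]
variable {E : Finset (V × V)} {D : ℕ} {W : U → U → ℝ} {ε : ℝ}

/-- the other end of an edge -/
def oth (u : V) (f : V × V) : V := if f.1 = u then f.2 else f.1

theorem oth_spec {u : V} {f : V × V} (h : f.1 = u ∨ f.2 = u) :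
    f = (u, oth u f) ∨ f = (oth u f, u) := by
  obtain ⟨a, b⟩ := f
  unfold oth
  simp only at h ⊢
  by_cases ha : a = u
  · subst ha; simp
  · have hb : b = u := h.resolve_left ha
    subst hb
    rw [if_neg ha]
    exact Or.inr rfl

theorem oth_ne {u : V} {f : V × V} (h : f.1 = u ∨ f.2 = u) (hne : f.1 ≠ f.2) : oth u f ≠ u := by
  rcases oth_spec h with h' | h'
  · intro e; rw [e] at h'; rw [h'] at hne; exact hne rfl
  · intro e; rw [e] at h'; rw [h'] at hne; exact hne rfl

theorem one_sub_sum_le {ι : Type} (S : Finset ι) (y : ι → ℝ) (h0 : ∀ i ∈ S, 0 ≤ y i)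
    (h1 : ∀ i ∈ S, y i ≤ 1) : 1 - ∑ i ∈ S, y i ≤ ∏ i ∈ S, (1 - y i) := by
  classical
  induction S using Finset.induction_on with
  | empty => simp
  | insert a S ha ih =>
    have ih' := ih (fun i hi => h0 i (mem_insert_of_mem hi))
      (fun i hi => h1 i (mem_insert_of_mem hi))
    rw [sum_insert ha, prod_insert ha]
    have a0 := h0 a (mem_insert_self a S)
    have a1 := h1 a (mem_insert_self a S)
    have s0 : 0 ≤ ∑ i ∈ S, y i := sum_nonneg fun i hi => h0 i (mem_insert_of_mem hi)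
    have := mul_le_mul_of_nonneg_left ih' (by linarith : 0 ≤ 1 - y a)
    nlinarith

theorem prod_le_two {ι : Type} [DecidableEq ι] (S : Finset ι) (y : ι → ℝ)
    (h0 : ∀ i ∈ S, 0 ≤ y i) (h1 : ∀ i ∈ S, y i ≤ 1) :
    ∏ i ∈ S, (1 - y i) ≤ 1 - ∑ i ∈ S, y i + 1 / 2 * ∑ i ∈ S, ∑ j ∈ S.erase i, y i * y j := by
  have key : ∀ S : Finset ι, ∑ i ∈ S, ∑ j ∈ S.erase i, y i * y j =
      (∑ i ∈ S, y i) ^ 2 - ∑ i ∈ S, y i ^ 2 := by
    intro S
    rw [sq, sum_mul_sum, ← sum_sub_distrib]
    refine sum_congr rfl fun i hi => ?_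
    rw [← add_sum_erase S (fun j => y i * y j) hi]
    ring
  rw [key]
  induction S using Finset.induction_on with
  | empty => simp
  | insert a S ha ih =>
    have ih' := ih (fun i hi => h0 i (mem_insert_of_mem hi))
      (fun i hi => h1 i (mem_insert_of_mem hi))
    have lo := one_sub_sum_le S y (fun i hi => h0 i (mem_insert_of_mem hi))
      (fun i hi => h1 i (mem_insert_of_mem hi))
    rw [sum_insert ha, prod_insert ha, sum_insert ha]
    have a0 := h0 a (mem_insert_self a S)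
    have a1 := h1 a (mem_insert_self a S)
    have := mul_le_mul_of_nonneg_left lo a0
    nlinarith

/-- the deficit of a row, times the number of points -/
def dfc (W : U → U → ℝ) (c : U) : ℝ := ∑ y, (1 - W c y)

section bounds

variable [Nonempty U]

theorem grow' (hE : Edges E D) (hW : Ker W ε) (hε0 : 0 ≤ ε) (hD : 8 * D * ε ≤ 1)
    (hε2 : 2 * ε ≤ 1) {S T : Finset (V × V)} (hS : S ⊆ E) (hT : T ⊆ S) {k : ℕ}
    (hk : (S \ T).card ≤ k) (hkD : 8 * k * ε ≤ 1) : Z W T ≤ 4 / 3 * Z W S := by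
  have h := grow (hE.mono hS) hW hε0 hD hε2 hT k hk
  have h1 := bern (ε := ε) hε2 k
  have h2 : (3:ℝ) / 4 ≤ (1 - 2 * ε) ^ k := by nlinarith
  have h3 := mul_le_mul_of_nonneg_right h2 (Z_nonneg hW.nonneg T)
  linarith

theorem low (hE : Edges E D) (hW : Ker W ε) (hε0 : 0 ≤ ε) (hD : 48 * (D:ℝ) ^ 2 * ε ≤ 1)
    (hD1 : 1 ≤ D) (hε2 : 2 * ε ≤ 1)
    (hr : ∀ a, (1 - 12 * D * ε) * (Fintype.card U : ℝ) ≤ ∑ b, W a b)
    {T : Finset (V × V)} (hT : T ⊆ E) (w : V) (c : U) :
    2 / 3 * (dfc W c * Z W T) ≤ (Fintype.card U : ℝ) *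
      ∑ x : V → U, (1 - W c (x w)) * ∏ g ∈ T, W (x g.1) (x g.2) := by
  have hN : (0 : ℝ) < (Fintype.card U : ℝ) := by exact_mod_cast Fintype.card_pos
  have hD1' : (1:ℝ) ≤ D := by exact_mod_cast hD1
  have hDε : 0 ≤ (D : ℝ) * ε := by positivity
  have h8 : 8 * (D:ℝ) * ε ≤ 1 := by nlinarith
  have hσ0 : 0 ≤ dfc W c := sum_nonneg fun y _ => by have := hW.le_one c y; linarith
  set T' := T.filter (fun g => ¬ (g.1 = w ∨ g.2 = w)) with hT'
  set R := T.filter (fun g => g.1 = w ∨ g.2 = w) with hR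
  have hT'T : T' ⊆ T := filter_subset _ _
  have hRD : R.card ≤ D := by
    refine (card_le_card ?_).trans (hE.deg w)
    intro g hg
    rw [hR, mem_filter] at hg
    rw [at_, mem_filter]
    exact ⟨hT hg.1, hg.2⟩
  have hprod : ∀ x : V → U, ∏ g ∈ T, W (x g.1) (x g.2) =
      (∏ g ∈ R, W (x g.1) (x g.2)) * ∏ g ∈ T', W (x g.1) (x g.2) := by
    intro x
    rw [hR, hT']
    exact (prod_filter_mul_prod_filter_not T _ _).symm
  have hpt : ∀ x : V → U, (1 - W c (x w)) * (∏ g ∈ T', W (x g.1) (x g.2)) -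
      ∑ g ∈ R, (1 - W c (x w)) * (1 - W (x g.1) (x g.2)) * (∏ g ∈ T', W (x g.1) (x g.2)) ≤
      (1 - W c (x w)) * ∏ g ∈ T, W (x g.1) (x g.2) := by
    intro x
    rw [hprod x]
    have h1 := one_sub_sum_le R (fun g => 1 - W (x g.1) (x g.2))
      (fun g _ => by have := hW.le_one (x g.1) (x g.2); linarith)
      (fun g _ => by have := hW.nonneg (x g.1) (x g.2); linarith)
    simp only [sub_sub_cancel] at h1
    have h2 : 0 ≤ (1 - W c (x w)) * ∏ g ∈ T', W (x g.1) (x g.2) :=
      mul_nonneg (by have := hW.le_one c (x w); linarith) (prod_nonneg' hW.nonneg T' x)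
    have h3 := mul_le_mul_of_nonneg_left h1 h2
    have h4 : ∑ g ∈ R, (1 - W c (x w)) * (1 - W (x g.1) (x g.2)) *
        (∏ g ∈ T', W (x g.1) (x g.2)) = (1 - W c (x w)) * (∏ g ∈ T', W (x g.1) (x g.2)) *
          ∑ g ∈ R, (1 - W (x g.1) (x g.2)) := by
      rw [mul_sum]
      exact sum_congr rfl fun g _ => by ring
    rw [h4]
    linarith
  have hsum := sum_le_sum fun (x : V → U) (_ : x ∈ (univ : Finset (V → U))) => hpt x
  rw [sum_sub_distrib, sum_comm] at hsum
  have hfirst := indep1 w (fun y => 1 - W c y) (fun x : V → U => ∏ g ∈ T', W (x g.1) (x g.2))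
    (fun x a => prod_update W T' w (fun g hg => by
      rw [hT', mem_filter] at hg; tauto) x a)
  have hsec : ∀ g ∈ R, (Fintype.card U : ℝ) * ∑ x : V → U, (1 - W c (x w)) *
      (1 - W (x g.1) (x g.2)) * (∏ g ∈ T', W (x g.1) (x g.2)) ≤
      16 * D * ε * (dfc W c * Z W T') := by
    intro g hg
    rw [hR, mem_filter] at hg
    have hgne := hE.irrefl g (hT hg.1)
    have hspec := oth_spec hg.2
    have hne := oth_ne hg.2 hgne
    set w' := oth w g with hw'
    set T'' := T'.filter (fun g => ¬ (g.1 = w' ∨ g.2 = w')) with hT''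
    have hT''T' : T'' ⊆ T' := filter_subset _ _
    have hval : ∀ x : V → U, W (x g.1) (x g.2) = W (x w) (x w') := by
      intro x
      rcases hspec with h | h
      · rw [h]
      · rw [h]; exact hW.symm _ _
    have h1 : ∑ x : V → U, (1 - W c (x w)) * (1 - W (x g.1) (x g.2)) *
        (∏ g ∈ T', W (x g.1) (x g.2)) ≤ ∑ x : V → U, ((1 - W c (x w)) * (1 - W (x w) (x w'))) *
        (∏ g ∈ T'', W (x g.1) (x g.2)) := by
      refine sum_le_sum fun x _ => ?_
      rw [hval x]
      refine mul_le_mul_of_nonneg_left (prod_mono hW.nonneg hW.le_one hT''T' x) ?_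
      exact mul_nonneg (by have := hW.le_one c (x w); linarith)
        (by have := hW.le_one (x w) (x w'); linarith)
    have h2 := indep2 (Ne.symm hne) (fun y d => (1 - W c y) * (1 - W y d))
      (fun x : V → U => ∏ g ∈ T'', W (x g.1) (x g.2))
      (fun x a => prod_update W T'' w (fun g hg => by
        rw [hT'', mem_filter, hT', mem_filter] at hg; tauto) x a)
      (fun x a => prod_update W T'' w' (fun g hg => by
        rw [hT'', mem_filter] at hg; tauto) x a)
    have h3 : ∑ y, ∑ d, (1 - W c y) * (1 - W y d) ≤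
        dfc W c * (12 * D * ε * (Fintype.card U : ℝ)) := by
      rw [dfc, sum_mul]
      refine sum_le_sum fun y _ => ?_
      rw [← mul_sum]
      refine mul_le_mul_of_nonneg_left ?_ (by have := hW.le_one c y; linarith)
      rw [sum_sub_distrib]
      have := hr y
      simp only [sum_const, card_univ, nsmul_eq_mul, mul_one]
      linarith
    have h4 : Z W T'' ≤ 4 / 3 * Z W T' := by
      refine grow' hE hW hε0 h8 hε2 (hT'T.trans hT) hT''T' (k := D) ?_ h8
      refine (card_le_card ?_).trans (hE.deg w')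
      intro g hg
      have hg1 := (mem_sdiff.1 hg).1
      have hg2 := (mem_sdiff.1 hg).2
      rw [at_, mem_filter]
      refine ⟨hT (hT'T hg1), ?_⟩
      by_contra hcon
      exact hg2 (mem_filter.2 ⟨hg1, hcon⟩)
    have h5 : (Fintype.card U : ℝ) ^ 2 * ∑ x : V → U, (1 - W c (x w)) *
        (1 - W (x g.1) (x g.2)) * (∏ g ∈ T', W (x g.1) (x g.2)) ≤
        (Fintype.card U : ℝ) * (16 * D * ε * (dfc W c * Z W T')) := by
      calc (Fintype.card U : ℝ) ^ 2 * ∑ x : V → U, (1 - W c (x w)) *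
          (1 - W (x g.1) (x g.2)) * (∏ g ∈ T', W (x g.1) (x g.2))
          ≤ (Fintype.card U : ℝ) ^ 2 * ∑ x : V → U, ((1 - W c (x w)) *
            (1 - W (x w) (x w'))) * (∏ g ∈ T'', W (x g.1) (x g.2)) :=
            mul_le_mul_of_nonneg_left h1 (by positivity)
        _ = (∑ y, ∑ d, (1 - W c y) * (1 - W y d)) * Z W T'' := h2
        _ ≤ (dfc W c * (12 * D * ε * (Fintype.card U : ℝ))) * (4 / 3 * Z W T') :=
            mul_le_mul h3 h4 (Z_nonneg hW.nonneg T'') (by positivity)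
        _ = _ := by ring
    have h6 : (Fintype.card U : ℝ) * ((Fintype.card U : ℝ) * ∑ x : V → U, (1 - W c (x w)) *
        (1 - W (x g.1) (x g.2)) * (∏ g ∈ T', W (x g.1) (x g.2))) ≤
        (Fintype.card U : ℝ) * (16 * D * ε * (dfc W c * Z W T')) := by
      calc _ = _ := by ring
        _ ≤ _ := h5
    exact le_of_mul_le_mul_left h6 hN
  have hsecsum : (Fintype.card U : ℝ) * ∑ g ∈ R, ∑ x : V → U, (1 - W c (x w)) *
      (1 - W (x g.1) (x g.2)) * (∏ g ∈ T', W (x g.1) (x g.2)) ≤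
      1 / 3 * (dfc W c * Z W T') := by
    rw [mul_sum]
    refine (sum_le_sum hsec).trans ?_
    rw [sum_const, nsmul_eq_mul]
    have h7 : (R.card : ℝ) ≤ D := by exact_mod_cast hRD
    have h8 : 0 ≤ dfc W c * Z W T' := mul_nonneg hσ0 (Z_nonneg hW.nonneg T')
    have h9 : (R.card : ℝ) * (16 * D * ε) ≤ 1 / 3 := by
      have : (R.card : ℝ) * (16 * D * ε) ≤ D * (16 * D * ε) :=
        mul_le_mul_of_nonneg_right h7 (by positivity)
      nlinarith
    calc (R.card : ℝ) * (16 * D * ε * (dfc W c * Z W T'))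
        = ((R.card : ℝ) * (16 * D * ε)) * (dfc W c * Z W T') := by ring
      _ ≤ _ := mul_le_mul_of_nonneg_right h9 h8
  have hmono : dfc W c * Z W T ≤ dfc W c * Z W T' :=
    mul_le_mul_of_nonneg_left (Z_mono hW.nonneg hW.le_one hT'T) hσ0
  have hfirst' : (Fintype.card U : ℝ) * ∑ x : V → U, (1 - W c (x w)) *
      (∏ g ∈ T', W (x g.1) (x g.2)) = dfc W c * Z W T' := hfirst
  have hfin := mul_le_mul_of_nonneg_left hsum hN.le
  rw [mul_sub, hfirst'] at hfin
  linarith

theorem upp (hE : Edges E D) (hW : Ker W ε) (hε0 : 0 ≤ ε) (hD : 16 * (D:ℝ) * ε ≤ 1)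
    (hε2 : 2 * ε ≤ 1) {T : Finset (V × V)} (hT : T ⊆ E) {w w' : V} (hww : w ≠ w') (c : U) :
    (Fintype.card U : ℝ) ^ 2 * ∑ x : V → U, (1 - W c (x w)) * (1 - W c (x w')) *
      ∏ g ∈ T, W (x g.1) (x g.2) ≤ 4 / 3 * (dfc W c ^ 2 * Z W T) := by
  have hN : (0 : ℝ) < (Fintype.card U : ℝ) := by exact_mod_cast Fintype.card_pos
  set T' := T.filter (fun g => ¬ ((g.1 = w ∨ g.2 = w) ∨ (g.1 = w' ∨ g.2 = w'))) with hT'
  have hT'T : T' ⊆ T := filter_subset _ _
  have h1 : ∑ x : V → U, (1 - W c (x w)) * (1 - W c (x w')) * ∏ g ∈ T, W (x g.1) (x g.2) ≤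
      ∑ x : V → U, ((1 - W c (x w)) * (1 - W c (x w'))) * ∏ g ∈ T', W (x g.1) (x g.2) := by
    refine sum_le_sum fun x _ => ?_
    refine mul_le_mul_of_nonneg_left (prod_mono hW.nonneg hW.le_one hT'T x) ?_
    exact mul_nonneg (by have := hW.le_one c (x w); linarith)
      (by have := hW.le_one c (x w'); linarith)
  have h2 := indep2 hww (fun y d => (1 - W c y) * (1 - W c d))
    (fun x : V → U => ∏ g ∈ T', W (x g.1) (x g.2))
    (fun x a => prod_update W T' w (fun g hg => by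
      rw [hT', mem_filter] at hg; tauto) x a)
    (fun x a => prod_update W T' w' (fun g hg => by
      rw [hT', mem_filter] at hg; tauto) x a)
  have h3 : ∑ y, ∑ d, (1 - W c y) * (1 - W c d) = dfc W c ^ 2 := by
    rw [dfc, sq, sum_mul_sum]
  have h4 : Z W T' ≤ 4 / 3 * Z W T := by
    refine grow' hE hW hε0 (by nlinarith [mul_nonneg (Nat.cast_nonneg (α := ℝ) D) hε0]) hε2 hT
      hT'T (k := 2 * D) ?_ (by push_cast; linarith)
    have hsub : T \ T' ⊆ at_ E w ∪ at_ E w' := by
      intro g hg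
      rw [mem_sdiff, hT', mem_filter] at hg
      rw [mem_union, at_, at_, mem_filter, mem_filter]
      have hgE := hT hg.1
      have hg1 := hg.1
      have hg2 := hg.2
      tauto
    have h5 := (card_le_card hsub).trans (card_union_le _ _)
    have h6 := hE.deg w
    have h7 := hE.deg w'
    omega
  calc (Fintype.card U : ℝ) ^ 2 * ∑ x : V → U, (1 - W c (x w)) * (1 - W c (x w')) *
        ∏ g ∈ T, W (x g.1) (x g.2)
      ≤ (Fintype.card U : ℝ) ^ 2 * ∑ x : V → U, ((1 - W c (x w)) * (1 - W c (x w'))) *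
        ∏ g ∈ T', W (x g.1) (x g.2) := mul_le_mul_of_nonneg_left h1 (by positivity)
    _ = dfc W c ^ 2 * Z W T' := by rw [h2, h3]; rfl
    _ ≤ dfc W c ^ 2 * (4 / 3 * Z W T) := mul_le_mul_of_nonneg_left h4 (sq_nonneg _)
    _ = _ := by ring

/-- the mean of the product of the weights of many edges to the point `c` -/
theorem row_prod (hE : Edges E D) (hW : Ker W ε) (hε0 : 0 ≤ ε) (hD : 48 * (D:ℝ) ^ 2 * ε ≤ 1)
    (hD1 : 1 ≤ D) (hε2 : 2 * ε ≤ 1)
    (hr : ∀ a, (1 - 12 * D * ε) * (Fintype.card U : ℝ) ≤ ∑ b, W a b)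
    {T : Finset (V × V)} (hT : T ⊆ E) {ι : Type} [DecidableEq ι] (F : Finset ι) (o : ι → V)
    (ho : Set.InjOn o F) (hF : F.card ≤ D) (c : U) :
    ∑ x : V → U, (∏ f ∈ F, W c (x (o f))) * ∏ g ∈ T, W (x g.1) (x g.2) ≤
      (1 - F.card * (dfc W c / Fintype.card U) / 2) * Z W T := by
  have hN : (0 : ℝ) < (Fintype.card U : ℝ) := by exact_mod_cast Fintype.card_pos
  have hD1' : (1:ℝ) ≤ D := by exact_mod_cast hD1
  have hDε : 0 ≤ (D : ℝ) * ε := by positivity
  have h16 : 16 * (D:ℝ) * ε ≤ 1 := by nlinarith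
  have hσ0 : 0 ≤ dfc W c := sum_nonneg fun y _ => by have := hW.le_one c y; linarith
  have hZ0 : 0 ≤ Z W T := Z_nonneg hW.nonneg T
  set s := dfc W c / (Fintype.card U : ℝ) with hs
  have hσ : dfc W c = s * Fintype.card U := by rw [hs]; field_simp
  have hs0 : 0 ≤ s := div_nonneg hσ0 hN.le
  have hs1 : s ≤ 12 * D * ε := by
    rw [hs, div_le_iff₀ hN, dfc, sum_sub_distrib]
    have := hr c
    simp only [sum_const, card_univ, nsmul_eq_mul, mul_one]
    linarith
  have hpt : ∀ x : V → U, (∏ f ∈ F, W c (x (o f))) * ∏ g ∈ T, W (x g.1) (x g.2) ≤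
      (∏ g ∈ T, W (x g.1) (x g.2)) - ∑ f ∈ F, (1 - W c (x (o f))) *
        (∏ g ∈ T, W (x g.1) (x g.2)) + 1 / 2 * ∑ f ∈ F, ∑ f' ∈ F.erase f,
          (1 - W c (x (o f))) * (1 - W c (x (o f'))) * ∏ g ∈ T, W (x g.1) (x g.2) := by
    intro x
    have h1 := prod_le_two F (fun f => 1 - W c (x (o f)))
      (fun f _ => by have := hW.le_one c (x (o f)); linarith)
      (fun f _ => by have := hW.nonneg c (x (o f)); linarith)
    simp only [sub_sub_cancel] at h1
    have h2 := mul_le_mul_of_nonneg_right h1 (prod_nonneg' hW.nonneg T x)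
    refine h2.trans (le_of_eq ?_)
    rw [add_mul, sub_mul, one_mul, sum_mul, mul_assoc, sum_mul]
    congr 2
    refine sum_congr rfl fun f _ => ?_
    rw [sum_mul]
  have hsum := sum_le_sum fun (x : V → U) (_ : x ∈ (univ : Finset (V → U))) => hpt x
  rw [sum_add_distrib, sum_sub_distrib, sum_comm, ← mul_sum, sum_comm (s := univ) (t := F)] at hsum
  have e3 : ∑ f ∈ F, ∑ x : V → U, ∑ f' ∈ F.erase f, (1 - W c (x (o f))) *
      (1 - W c (x (o f'))) * ∏ g ∈ T, W (x g.1) (x g.2) = ∑ f ∈ F, ∑ f' ∈ F.erase f,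
      ∑ x : V → U, (1 - W c (x (o f))) * (1 - W c (x (o f'))) * ∏ g ∈ T, W (x g.1) (x g.2) :=
    sum_congr rfl fun f _ => sum_comm
  rw [e3] at hsum
  have hlow : (F.card : ℝ) * (2 / 3 * (s * Z W T)) ≤ ∑ f ∈ F, ∑ x : V → U,
      (1 - W c (x (o f))) * ∏ g ∈ T, W (x g.1) (x g.2) := by
    rw [← nsmul_eq_mul, ← sum_const]
    refine sum_le_sum fun f _ => ?_
    have := low hE hW hε0 hD hD1 hε2 hr hT (o f) c
    rw [hσ] at this
    have h2 : (Fintype.card U : ℝ) * (2 / 3 * (s * Z W T)) ≤ (Fintype.card U : ℝ) *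
        ∑ x : V → U, (1 - W c (x (o f))) * ∏ g ∈ T, W (x g.1) (x g.2) := by
      calc _ = _ := by ring
        _ ≤ _ := this
    exact le_of_mul_le_mul_left h2 hN
  have hupp : ∑ f ∈ F, ∑ f' ∈ F.erase f, ∑ x : V → U, (1 - W c (x (o f))) *
      (1 - W c (x (o f'))) * ∏ g ∈ T, W (x g.1) (x g.2) ≤
      (F.card : ℝ) * ((F.card : ℝ) * (4 / 3 * (s ^ 2 * Z W T))) := by
    have h1 : ∀ f ∈ F, ∑ f' ∈ F.erase f, ∑ x : V → U, (1 - W c (x (o f))) *
        (1 - W c (x (o f'))) * ∏ g ∈ T, W (x g.1) (x g.2) ≤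
        (F.card : ℝ) * (4 / 3 * (s ^ 2 * Z W T)) := by
      intro f hf
      have h2 : ∀ f' ∈ F.erase f, ∑ x : V → U, (1 - W c (x (o f))) *
          (1 - W c (x (o f'))) * ∏ g ∈ T, W (x g.1) (x g.2) ≤ 4 / 3 * (s ^ 2 * Z W T) := by
        intro f' hf'
        rw [mem_erase] at hf'
        have hoo : o f ≠ o f' := fun h => hf'.1 (ho hf'.2 hf h.symm)
        have := upp hE hW hε0 h16 hε2 hT hoo c
        rw [hσ] at this
        have h3 : (Fintype.card U : ℝ) ^ 2 * ∑ x : V → U, (1 - W c (x (o f))) *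
          (1 - W c (x (o f'))) * ∏ g ∈ T, W (x g.1) (x g.2) ≤ (Fintype.card U : ℝ) ^ 2 *
            (4 / 3 * (s ^ 2 * Z W T)) := by
          calc _ ≤ _ := this
            _ = _ := by ring
        exact le_of_mul_le_mul_left h3 (by positivity)
      refine (sum_le_sum h2).trans ?_
      rw [sum_const, nsmul_eq_mul]
      refine mul_le_mul_of_nonneg_right ?_ (by positivity)
      exact_mod_cast card_erase_le
    refine (sum_le_sum h1).trans ?_
    rw [sum_const, nsmul_eq_mul]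
  have hFD : (F.card : ℝ) ≤ D := by exact_mod_cast hF
  have hFs : (F.card : ℝ) * s ≤ 1 / 4 := by
    have h1 : (F.card : ℝ) * s ≤ D * (12 * D * ε) :=
      mul_le_mul hFD hs1 hs0 (by positivity)
    nlinarith
  have hFs0 : 0 ≤ (F.card : ℝ) * s := mul_nonneg (Nat.cast_nonneg _) hs0
  have hq : ((F.card : ℝ) * s) ^ 2 * Z W T ≤ 1 / 4 * ((F.card : ℝ) * s) * Z W T := by
    refine mul_le_mul_of_nonneg_right ?_ hZ0
    nlinarith
  have hZdef : ∑ x : V → U, ∏ g ∈ T, W (x g.1) (x g.2) = Z W T := rfl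
  rw [hZdef] at hsum
  nlinarith

theorem at_oth_inj (hE : Edges E D) (u : V) : Set.InjOn (oth u) (at_ E u : Set (V × V)) := by
  intro f hf g hg h
  rw [mem_coe, at_, mem_filter] at hf hg
  rcases oth_spec hf.2 with h1 | h1 <;> rcases oth_spec hg.2 with h2 | h2
  · rw [h1, h2, h]
  · exfalso
    have := hE.simple f hf.1
    rw [h1] at this
    apply this
    rw [h2] at hg
    rw [h]
    exact hg.1
  · exfalso
    have := hE.simple g hg.1
    rw [h2] at this
    apply this
    rw [h1] at hf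
    rw [← h]
    exact hf.1
  · rw [h1, h2, h]

/-- all the edges at one end of `e` are used -/
theorem A_row (hE : Edges E D) (hW : Ker W ε) (hε0 : 0 ≤ ε) (hD : 48 * (D:ℝ) ^ 2 * ε ≤ 1)
    (hD1 : 1 ≤ D) (hε2 : 2 * ε ≤ 1)
    (hr : ∀ a, (1 - 12 * D * ε) * (Fintype.card U : ℝ) ≤ ∑ b, W a b)
    {e : V × V} (he : e ∈ E) (a b : U) {u : V} (hu : u = e.1 ∨ u = e.2) {c : U}
    (hc : ∀ x : V → U, update (update x e.1 a) e.2 b u = c) :
    A W E e a b ≤ (1 - (((at_ E u).card - 1 : ℕ) : ℝ) * (dfc W c / Fintype.card U) / 2) *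
      Z W (E.filter fun f => ¬ (f.1 = e.1 ∨ f.2 = e.1 ∨ f.1 = e.2 ∨ f.2 = e.2)) := by
  set T := E.filter fun f => ¬ (f.1 = e.1 ∨ f.2 = e.1 ∨ f.1 = e.2 ∨ f.2 = e.2) with hT
  set F := (at_ E u).erase e with hF
  have hee := hE.irrefl e he
  have heu : e ∈ at_ E u := by
    rw [at_, mem_filter]
    refine ⟨he, ?_⟩
    rcases hu with h | h
    · exact Or.inl h.symm
    · exact Or.inr h.symm
  have hFc : F.card = (at_ E u).card - 1 := card_erase_of_mem heu
  have hFD : F.card ≤ D := by have := hE.deg u; omega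
  have hfacts : ∀ f ∈ F, f ∈ E ∧ f ≠ e ∧ (f.1 = u ∨ f.2 = u) ∧ oth u f ≠ e.1 ∧
      oth u f ≠ e.2 := by
    intro f hf
    rw [hF, mem_erase, at_, mem_filter] at hf
    obtain ⟨hfe, hfE, hfu⟩ := hf
    refine ⟨hfE, hfe, hfu, ?_, ?_⟩
    · intro h
      rcases hu with h' | h'
      · exact oth_ne hfu (hE.irrefl f hfE) (h.trans h'.symm)
      · rcases oth_spec hfu with h1 | h1
        · apply hE.simple e he
          rw [h, h'] at h1
          rw [← h1]; exact hfE
        · apply hfe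
          rw [h, h'] at h1
          rw [h1]
    · intro h
      rcases hu with h' | h'
      · rcases oth_spec hfu with h1 | h1
        · apply hfe
          rw [h, h'] at h1
          rw [h1]
        · apply hE.simple e he
          rw [h, h'] at h1
          rw [← h1]; exact hfE
      · exact oth_ne hfu (hE.irrefl f hfE) (h.trans h'.symm)
  have hdis : Disjoint F T := by
    rw [disjoint_left]
    intro f hf hfT
    rw [hT, mem_filter] at hfT
    obtain ⟨_, _, hfu, _, _⟩ := hfacts f hf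
    apply hfT.2
    rcases hu with h | h <;> rcases hfu with h' | h' <;> rw [h] at h' <;> tauto
  have hsub : F ∪ T ⊆ E.erase e := by
    intro f hf
    rw [mem_union] at hf
    rw [mem_erase]
    rcases hf with hf | hf
    · obtain ⟨h1, h2, _⟩ := hfacts f hf
      exact ⟨h2, h1⟩
    · rw [hT, mem_filter] at hf
      refine ⟨?_, hf.1⟩
      rintro rfl
      exact hf.2 (Or.inl rfl)
  have hA : A W E e a b ≤ ∑ x : V → U, (∏ f ∈ F, W c (x (oth u f))) *
      ∏ g ∈ T, W (x g.1) (x g.2) := by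
    rw [A]
    refine sum_le_sum fun x _ => ?_
    refine (prod_mono hW.nonneg hW.le_one hsub _).trans (le_of_eq ?_)
    rw [prod_union hdis]
    congr 1
    · refine prod_congr rfl fun f hf => ?_
      obtain ⟨h1, h2, h3, h4, h5⟩ := hfacts f hf
      have hv : update (update x e.1 a) e.2 b (oth u f) = x (oth u f) := by
        rw [update_of_ne h5, update_of_ne h4]
      rcases oth_spec h3 with h | h
      · have e1 : f.1 = u := by rw [h]
        have e2 : f.2 = oth u f := by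
          have := congrArg Prod.snd h
          exact this
        rw [e1, e2, hc, hv]
      · have e1 : f.2 = u := by rw [h]
        have e2 : f.1 = oth u f := by
          have := congrArg Prod.fst h
          exact this
        rw [e1, e2, hc, hv, hW.symm]
    · refine prod_congr rfl fun g hg => ?_
      rw [hT, mem_filter] at hg
      have h := hg.2
      push Not at h
      rw [update_of_ne h.2.2.1, update_of_ne h.1, update_of_ne h.2.2.2, update_of_ne h.2.1]
  refine hA.trans ?_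
  have := row_prod hE hW hε0 hD hD1 hε2 hr (filter_subset _ E : T ⊆ E) F (oth u)
    ((at_oth_inj hE u).mono (by
      intro f hf
      rw [mem_coe, hF, mem_erase] at hf
      exact hf.2)) hFD c
  rwa [hFc] at this

/-- all rows of the minimiser are very close to one -/
theorem rows_good2 (hE : Edges E D) (hiso : NoIso E) (hne : E.Nonempty)
    (hW : IsMin W ε E) (hε0 : 0 ≤ ε) (hD : 48 * (D:ℝ) ^ 2 * ε ≤ 1) (hε2 : 2 * ε < 1) (a : U) :
    (1 - 16 * ε) * (Fintype.card U : ℝ) ≤ ∑ b, W a b := by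
  have hNn : 0 < Fintype.card U := Fintype.card_pos
  have hN : (0 : ℝ) < (Fintype.card U : ℝ) := by exact_mod_cast hNn
  have hD1 : 1 ≤ D := by
    obtain ⟨e, he⟩ := hne
    have h1 := hE.deg e.1
    have h2 : 0 < (at_ E e.1).card := card_pos.2 ⟨e, by rw [at_, mem_filter]; exact ⟨he, Or.inl rfl⟩⟩
    omega
  have hD1' : (1:ℝ) ≤ D := by exact_mod_cast hD1
  have hDε : 0 ≤ (D : ℝ) * ε := by positivity
  have h8 : 8 * (D:ℝ) * ε ≤ 1 := by nlinarith
  have hr := rows_good hE hiso hne hW hε0 h8 hε2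
  by_cases hall : ∀ b, W a b = 1
  · simp only [hall, Finset.sum_const, Finset.card_univ, nsmul_eq_mul, mul_one]
    nlinarith
  push Not at hall
  obtain ⟨b, hb⟩ := hall
  have hb1 : W a b < 1 := lt_of_le_of_ne (hW.1.le_one a b) hb
  have hst := stationary hE.irrefl hW (by linarith) hb1
  have hZ := Z_pos hE hW.1 hε0 h8 hε2
  have htot : tot W ≤ (Fintype.card U : ℝ) ^ 2 := by
    have : ∀ x ∈ (univ : Finset U), ∑ y, W x y ≤ (Fintype.card U : ℝ) := by
      intro x _
      refine (Finset.sum_le_sum fun y _ => hW.1.le_one x y).trans (le_of_eq ?_)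
      simp
    refine (Finset.sum_le_sum this).trans (le_of_eq ?_)
    simp [sq]
  set S := ∑ e ∈ E, (A W E e a b + A W E e b a) with hS
  have hS0 : 0 ≤ S := Finset.sum_nonneg fun e _ => add_nonneg
    (Finset.sum_nonneg fun x _ => Finset.prod_nonneg fun f _ => hW.1.nonneg _ _)
    (Finset.sum_nonneg fun x _ => Finset.prod_nonneg fun f _ => hW.1.nonneg _ _)
  have h1 : 2 * E.card * Z W E ≤ S := by
    have h := hst.trans (mul_le_mul_of_nonneg_right htot hS0)
    have h' : (Fintype.card U : ℝ) ^ 2 * (2 * E.card * Z W E) ≤ (Fintype.card U : ℝ) ^ 2 * S := by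
      calc _ = _ := by ring
        _ ≤ _ := h
    exact le_of_mul_le_mul_left h' (by positivity)
  set s := dfc W a / (Fintype.card U : ℝ) with hs
  have hσ : dfc W a = s * Fintype.card U := by rw [hs]; field_simp
  have hrow : ∑ b, W a b = (1 - s) * (Fintype.card U : ℝ) := by
    have : dfc W a = (Fintype.card U : ℝ) - ∑ b, W a b := by
      rw [dfc, sum_sub_distrib]; simp
    rw [sub_mul, one_mul, ← hσ, this]; ring
  rw [hrow]
  refine mul_le_mul_of_nonneg_right ?_ hN.le
  by_contra hcon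
  push Not at hcon
  have hs16 : 16 * ε < s := by linarith
  have hedge : ∀ e ∈ E, A W E e a b + A W E e b a < 2 * Z W E := by
    intro e he
    have hee := hE.irrefl e he
    set T := E.filter fun f => ¬ (f.1 = e.1 ∨ f.2 = e.1 ∨ f.1 = e.2 ∨ f.2 = e.2) with hT
    have hA1 := A_row hE hW.1 hε0 hD hD1 hε2.le hr he a b (u := e.1) (Or.inl rfl) (c := a)
      (fun x => by rw [update_of_ne hee, update_self])
    have hA2 := A_row hE hW.1 hε0 hD hD1 hε2.le hr he b a (u := e.2) (Or.inr rfl) (c := a)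
      (fun x => by rw [update_self])
    rw [← hT, ← hs] at hA1 hA2
    have m1 : e ∈ at_ E e.1 := by rw [at_, mem_filter]; exact ⟨he, Or.inl rfl⟩
    have m2 : e ∈ at_ E e.2 := by rw [at_, mem_filter]; exact ⟨he, Or.inr rfl⟩
    have c1 : 1 ≤ (at_ E e.1).card := card_pos.2 ⟨e, m1⟩
    have c2 : 1 ≤ (at_ E e.2).card := card_pos.2 ⟨e, m2⟩
    set q := ((at_ E e.1).card - 1) + ((at_ E e.2).card - 1) with hq
    have hq1 : 1 ≤ q := by
      obtain ⟨f, hfE, hfe, hf⟩ := hiso e he
      have : 2 ≤ (at_ E e.1).card ∨ 2 ≤ (at_ E e.2).card := by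
        have h3 : f ∈ at_ E e.1 ∨ f ∈ at_ E e.2 := by
          rw [at_, at_, mem_filter, mem_filter]
          tauto
        rcases h3 with h3 | h3
        · left
          exact one_lt_card.2 ⟨f, h3, e, m1, hfe⟩
        · right
          exact one_lt_card.2 ⟨f, h3, e, m2, hfe⟩
      omega
    have hgrow : (1 - 2 * ε) ^ (q + 1) * Z W T ≤ Z W E := by
      refine grow (T := T) hE hW.1 hε0 h8 hε2.le (filter_subset _ E) _ ?_
      have hsub : E \ T ⊆ (at_ E e.1).erase e ∪ at_ E e.2 := by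
        intro f hf
        rw [mem_sdiff, hT, mem_filter] at hf
        rw [mem_union, mem_erase, at_, at_, mem_filter, mem_filter]
        by_cases hfe : f = e
        · right
          rw [hfe]
          exact ⟨he, Or.inr rfl⟩
        · tauto
      have h3 := (card_le_card hsub).trans (card_union_le _ _)
      rw [card_erase_of_mem m1] at h3
      omega
    have hZT : 0 ≤ Z W T := Z_nonneg hW.1.nonneg T
    have hsumA : A W E e a b + A W E e b a ≤ (2 - q * s / 2) * Z W T := by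
      have hqc : (q : ℝ) = (((at_ E e.1).card - 1 : ℕ) : ℝ) + (((at_ E e.2).card - 1 : ℕ) : ℝ) := by
        rw [hq]; push_cast; ring
      rw [hqc]
      linarith
    have hq1' : (1:ℝ) ≤ q := by exact_mod_cast hq1
    have hbern := bern (ε := ε) hε2.le (q + 1)
    push_cast at hbern
    have hpos : 0 < (1 - 2 * ε) ^ (q + 1) := pow_pos (by linarith) _
    have hlt : 2 - q * s / 2 < 2 * (1 - 2 * ε) ^ (q + 1) := by
      have h3 : (q:ℝ) * (16 * ε) < q * s := mul_lt_mul_of_pos_left hs16 (by linarith)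
      have h4 : 0 ≤ ((q:ℝ) - 1) * ε := mul_nonneg (by linarith) hε0
      nlinarith
    have hZTpos : 0 < Z W T := lt_of_lt_of_le hZ (Z_mono hW.1.nonneg hW.1.le_one
      (filter_subset _ E))
    have h5 : (2 - q * s / 2) * Z W T < 2 * (1 - 2 * ε) ^ (q + 1) * Z W T :=
      mul_lt_mul_of_pos_right hlt hZTpos
    linarith
  have h6 : S < ∑ _e ∈ E, 2 * Z W E := sum_lt_sum_of_nonempty hne hedge
  rw [sum_const, nsmul_eq_mul] at h6
  linarith

theorem main_noIso2 (hE : Edges E D) (hiso : NoIso E) (hε0 : 0 ≤ ε)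
    (hD : 48 * (D:ℝ) ^ 2 * ε ≤ 1) (hε2 : 2 * ε < 1)
    (hgood : ∀ W : U → U → ℝ, Ker W ε →
      (∀ a, (1 - 16 * ε) * (Fintype.card U : ℝ) ≤ ∑ b, W a b) → Ineq W E)
    (hW : Ker W ε) : Ineq W E := by
  have hNn : 0 < Fintype.card U := Fintype.card_pos
  have hN : (0 : ℝ) < (Fintype.card U : ℝ) := by exact_mod_cast hNn
  rcases E.eq_empty_or_nonempty with rfl | hne
  · unfold Ineq Z
    simp [hN.ne']
  obtain ⟨W₀, h₀⟩ := exists_isMin E (by linarith) hW
  have h1 := hgood W₀ h₀.1 (rows_good2 hE hiso hne h₀ hε0 hD hε2)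
  have h2 := h₀.2 W hW
  have ht : 0 < tot W := hW.tot_pos (by linarith)
  have ht₀ : 0 < tot W₀ := h₀.1.tot_pos (by linarith)
  unfold Ineq at h1 ⊢
  rw [div_pow, div_le_div_iff₀ (by positivity) (by positivity)] at h1 ⊢
  have h3 : tot W₀ ^ E.card * (tot W ^ E.card * (Fintype.card U : ℝ) ^ Fintype.card V)
      ≤ tot W₀ ^ E.card * (Z W E * ((Fintype.card U : ℝ) ^ 2) ^ E.card) := by
    calc tot W₀ ^ E.card * (tot W ^ E.card * (Fintype.card U : ℝ) ^ Fintype.card V)
        = (tot W₀ ^ E.card * (Fintype.card U : ℝ) ^ Fintype.card V) * tot W ^ E.card := by ring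
      _ ≤ (Z W₀ E * ((Fintype.card U : ℝ) ^ 2) ^ E.card) * tot W ^ E.card :=
          mul_le_mul_of_nonneg_right h1 (by positivity)
      _ = (Z W₀ E * tot W ^ E.card) * ((Fintype.card U : ℝ) ^ 2) ^ E.card := by ring
      _ ≤ (Z W E * tot W₀ ^ E.card) * ((Fintype.card U : ℝ) ^ 2) ^ E.card :=
          mul_le_mul_of_nonneg_right h2 (by positivity)
      _ = _ := by ring
  exact le_of_mul_le_mul_left h3 (pow_pos ht₀ _)

/-- the row condition can be dropped, sharper form -/
theorem main2 (hε0 : 0 ≤ ε) (hD : 48 * (D:ℝ) ^ 2 * ε ≤ 1) (hε2 : 2 * ε < 1) :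
    ∀ (k : ℕ) (E : Finset (V × V)), E.card = k → Edges E D →
    (∀ W : U → U → ℝ, Ker W ε →
      (∀ a, (1 - 16 * ε) * (Fintype.card U : ℝ) ≤ ∑ b, W a b) → Ineq W E) →
    ∀ W : U → U → ℝ, Ker W ε → Ineq W E := by
  intro k
  induction k with
  | zero =>
    intro E hk hE hgood W hW
    have : NoIso E := by
      rw [Finset.card_eq_zero] at hk
      subst hk
      intro e he
      simp at he
    exact main_noIso2 hE this hε0 hD hε2 hgood hW
  | succ k ih =>
    intro E hk hE hgood W hW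
    by_cases hiso : NoIso E
    · exact main_noIso2 hE hiso hε0 hD hε2 hgood hW
    · unfold NoIso at hiso
      push Not at hiso
      obtain ⟨e, he, hf⟩ := hiso
      have h : ∀ f ∈ E, f ≠ e → ¬ (f.1 = e.1 ∨ f.2 = e.1 ∨ f.1 = e.2 ∨ f.2 = e.2) := by
        intro f hfE hfe
        have := hf f hfE hfe
        tauto
      have hne := hE.irrefl e he
      rw [Ineq_iso he hne h (hW.tot_pos (by linarith))]
      refine ih (E.erase e) (by rw [Finset.card_erase_of_mem he, hk]; rfl)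
        (hE.mono (Finset.erase_subset _ _)) (fun W' hW' hr => ?_) W hW
      rw [← Ineq_iso he hne h (hW'.tot_pos (by linarith))]
      exact hgood W' hW' hr

end bounds

end Vale.Agent.P050.MinRed

namespace Vale.Agent.P050.Dense

open Vale.Agent.P050

/-- **M10**, sharper form: all the rows of the extremal kernel have deficit at most `16 ε`. -/
theorem remove_rows2 {V : Type} [Fintype V] [DecidableEq V] (H : SimpleGraph V)
    [DecidableRel H.Adj] {D : ℕ} (hD : ∀ v, H.degree v ≤ D) {θ ε : ℝ} (hε0 : 0 ≤ ε)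
    (hε : 16 * ε ≤ θ) (hε8 : 48 * (D:ℝ) ^ 2 * ε ≤ 1)
    (hgood : ∀ (n : ℕ) (W : Fin n → Fin n → ℝ) (hs : ∀ x y, W x y = W y x), 0 < n →
      (∀ x y, 0 ≤ W x y) → (∀ x y, W x y ≤ 1) → (∀ x, (1 - θ) * n ≤ ∑ y, W x y) →
      pden W ^ H.edgeFinset.card ≤ tden H W hs)
    {X : Type} [Fintype X] [Nonempty X] (W : X → X → ℝ) (hs : ∀ x y, W x y = W y x)
    (h0 : ∀ x y, 0 ≤ W x y) (h1 : ∀ x y, W x y ≤ 1) (hp : 1 - ε ≤ pden W) :
    pden W ^ H.edgeFinset.card ≤ tden H W hs := by
  rcases Nat.eq_zero_or_pos D with hD0 | hD0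
  · have hE : H.edgeFinset = ∅ := by
      rw [Finset.eq_empty_iff_forall_notMem]
      intro e he
      induction e using Sym2.ind with
      | _ u v =>
        rw [SimpleGraph.mem_edgeFinset, SimpleGraph.mem_edgeSet] at he
        have h := hD u
        have : 0 < H.degree u := (SimpleGraph.degree_pos_iff_exists_adj _ _).2 ⟨v, he⟩
        omega
    have hX : (0 : ℝ) < (Fintype.card X : ℝ) := by exact_mod_cast Fintype.card_pos
    rw [tden]
    simp [hE, hX.ne']
  have hε2 : 2 * ε < 1 := by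
    have : (1 : ℝ) ≤ D := by exact_mod_cast hD0
    nlinarith
  set n := Fintype.card X with hn
  have hn0 : 0 < n := Fintype.card_pos
  have : Nonempty (Fin n) := ⟨⟨0, hn0⟩⟩
  set φ : Fin n ≃ X := (Fintype.equivFin X).symm with hφ
  rw [← pden_equiv φ W, ← tden_equiv H φ W hs]
  set W' : Fin n → Fin n → ℝ := fun x y => W (φ x) (φ y) with hW'
  have hN : (0 : ℝ) < (n : ℝ) ^ 2 := by positivity
  rw [← ineq_iff]
  refine MinRed.main2 hε0 hε8 hε2 _ (orient H) rfl (orient_edges H hD) ?_ W' ?_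
  · intro W₁ hK hr
    rw [ineq_iff H W₁ hK.symm]
    refine hgood n W₁ hK.symm hn0 hK.nonneg hK.le_one fun x => ?_
    have := hr x
    rw [Fintype.card_fin] at this
    refine le_trans ?_ this
    refine mul_le_mul_of_nonneg_right ?_ (by positivity)
    linarith
  · refine ⟨fun a b => hs _ _, fun a b => h0 _ _, fun a b => h1 _ _, ?_⟩
    rw [← pden_equiv φ W, pden_eq, Fintype.card_fin, le_div_iff₀ hN] at hp
    rw [Fintype.card_fin]
    exact hp

end Vale.Agent.P050.Dense
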