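import Vale.Agent.P050.R2.H111.Rows

set_option linter.all false

/-!
The optimal form of M10 (bipartite targets): if `128 D ε ≤ 1`, all the rows of the minimiser have
deficit at most `17 ε`.
-/

open Finset Function

namespace Vale.Agent.P050.MinRed

variable {V U : Type} [Fintype V] [DecidableEq V] [Fintype U]
variable {E : Finset (V × V)} {D : ℕ} {W : U → U → ℝ} {ε : ℝ}

/-- the edges go between two classes -/
def Bip (E : Finset (V × V)) : Prop := ∃ col : V → Bool, ∀ e ∈ E, col e.1 ≠ col e.2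

theorem Bip.mono (hb : Bip E) {S : Finset (V × V)} (h : S ⊆ E) : Bip S := by
  obtain ⟨c, hc⟩ := hb
  exact ⟨c, fun e he => hc e (h he)⟩

/-- double counting -/
theorem sum_at (hE : ∀ e ∈ E, e.1 ≠ e.2) (φ : V → V × V → ℝ) :
    ∑ u : V, ∑ e ∈ at_ E u, φ u e = ∑ e ∈ E, (φ e.1 e + φ e.2 e) := by
  unfold at_
  simp_rw [sum_filter]
  rw [sum_comm]
  refine sum_congr rfl fun e he => ?_
  rw [← sum_filter]
  have : (univ.filter fun u : V => e.1 = u ∨ e.2 = u) = {e.1, e.2} := by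
    ext u
    simp only [mem_filter, mem_univ, true_and, mem_insert, mem_singleton]
    tauto
  rw [this, sum_pair (hE e he)]

theorem oth_fst {e : V × V} : oth e.1 e = e.2 := by
  unfold oth; simp

theorem oth_snd {e : V × V} (h : e.1 ≠ e.2) : oth e.2 e = e.1 := by
  unfold oth; rw [if_neg h]

/-- soft inclusion-exclusion -/
theorem one_le_soft {ι : Type} [DecidableEq ι] (F : Finset ι) (y : ι → ℝ)
    (h0 : ∀ i ∈ F, 0 ≤ y i) (h1 : ∀ i ∈ F, y i ≤ 1) {l : ℝ} (l0 : 0 ≤ l) (l1 : l ≤ 1) :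
    ∑ f ∈ F, y f * ∏ g ∈ F.erase f, (1 - y g) ≤
      ∑ f ∈ F, y f - l * ∑ f ∈ F, ∑ g ∈ F.erase f, y f * y g +
      l ^ 2 / 2 * ∑ f ∈ F, ∑ g ∈ F.erase f, ∑ h ∈ (F.erase f).erase g, y f * y g * y h := by
  have key : ∀ f ∈ F, y f * ∏ g ∈ F.erase f, (1 - y g) ≤
      y f - l * (∑ g ∈ F.erase f, y f * y g) +
      l ^ 2 / 2 * ∑ g ∈ F.erase f, ∑ h ∈ (F.erase f).erase g, y f * y g * y h := by
    intro f hf
    have m0 : ∀ i ∈ F.erase f, 0 ≤ y i := fun i hi => h0 i (mem_of_mem_erase hi)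
    have m1 : ∀ i ∈ F.erase f, y i ≤ 1 := fun i hi => h1 i (mem_of_mem_erase hi)
    have e1 : ∏ g ∈ F.erase f, (1 - y g) ≤ ∏ g ∈ F.erase f, (1 - l * y g) := by
      refine prod_le_prod (fun i hi => by have := m1 i hi; linarith) fun i hi => ?_
      have := m0 i hi
      nlinarith
    have e2 := prod_le_two (F.erase f) (fun g => l * y g)
      (fun i hi => mul_nonneg l0 (m0 i hi))
      (fun i hi => by have := m0 i hi; have := m1 i hi; nlinarith)
    have e3 := mul_le_mul_of_nonneg_left (e1.trans e2) (h0 f hf)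
    refine e3.trans (le_of_eq ?_)
    have a1 : ∑ g ∈ F.erase f, y f * y g = y f * ∑ g ∈ F.erase f, y g := by rw [mul_sum]
    have a2 : ∑ g ∈ F.erase f, l * y g = l * ∑ g ∈ F.erase f, y g := by rw [mul_sum]
    have a3 : ∑ g ∈ F.erase f, ∑ h ∈ (F.erase f).erase g, l * y g * (l * y h) =
        l ^ 2 * ∑ g ∈ F.erase f, ∑ h ∈ (F.erase f).erase g, y g * y h := by
      rw [mul_sum]
      refine sum_congr rfl fun g _ => ?_
      rw [mul_sum]
      exact sum_congr rfl fun h _ => by ring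
    have a4 : ∑ g ∈ F.erase f, ∑ h ∈ (F.erase f).erase g, y f * y g * y h =
        y f * ∑ g ∈ F.erase f, ∑ h ∈ (F.erase f).erase g, y g * y h := by
      rw [mul_sum]
      refine sum_congr rfl fun g _ => ?_
      rw [mul_sum]
      exact sum_congr rfl fun h _ => by ring
    rw [a1, a2, a3, a4]
    ring
  refine (sum_le_sum key).trans (le_of_eq ?_)
  rw [sum_add_distrib, sum_sub_distrib, mul_sum, mul_sum]

section bounds

variable [Nonempty U]

theorem grow_up (hE : Edges E D) (hW : Ker W ε) (hε0 : 0 ≤ ε) (hD : 8 * D * ε ≤ 1)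
    (hε2 : 2 * ε ≤ 1) {S T : Finset (V × V)} (hS : S ⊆ E) (hT : T ⊆ S) {k : ℕ}
    (hk : (S \ T).card ≤ k) (hkD : 6 * k * ε ≤ 1) : Z W T ≤ (1 + 3 * k * ε) * Z W S := by
  have h := grow (hE.mono hS) hW hε0 hD hε2 hT k hk
  have h1 := bern (ε := ε) hε2 k
  have hZ := Z_nonneg hW.nonneg T
  have h2 : (1 - 2 * k * ε) * Z W T ≤ Z W S := (mul_le_mul_of_nonneg_right h1 hZ).trans h
  have hk0 : 0 ≤ (k:ℝ) * ε := by positivity
  have h3 := mul_le_mul_of_nonneg_left h2 (by linarith : 0 ≤ 1 + 3 * (k:ℝ) * ε)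
  have h4 : 1 ≤ (1 + 3 * (k:ℝ) * ε) * (1 - 2 * k * ε) := by nlinarith
  have h5 := mul_le_mul_of_nonneg_right h4 hZ
  nlinarith

/-- a factor which depends on a free vertex -/
theorem peel (W : U → U → ℝ) (c : U) (w : V) (g : (V → U) → ℝ)
    (hg : ∀ x a, g (update x w a) = g x) :
    ∑ x : V → U, (1 - W c (x w)) * g x =
      dfc W c / (Fintype.card U : ℝ) * ∑ x, g x := by
  have hN : (0 : ℝ) < (Fintype.card U : ℝ) := by exact_mod_cast Fintype.card_pos
  have h := indep1 w (fun y => 1 - W c y) g hg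
  rw [div_mul_eq_mul_div, eq_div_iff hN.ne', mul_comm]
  exact h

/-- first moment -/
theorem mom1 (hE : Edges E D) (hW : Ker W ε) (hε0 : 0 ≤ ε) (hD : 8 * D * ε ≤ 1)
    (hε2 : 2 * ε ≤ 1) {T : Finset (V × V)} (hT : T ⊆ E) (w : V) (c : U) {k : ℕ}
    (hk : (at_ T w).card ≤ k) (hkD : 6 * k * ε ≤ 1) :
    ∑ x : V → U, (1 - W c (x w)) * ∏ g ∈ T, W (x g.1) (x g.2) ≤
      dfc W c / (Fintype.card U : ℝ) * ((1 + 3 * k * ε) * Z W T) := by
  have hN : (0 : ℝ) < (Fintype.card U : ℝ) := by exact_mod_cast Fintype.card_pos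
  have hσ0 : 0 ≤ dfc W c := sum_nonneg fun y _ => by have := hW.le_one c y; linarith
  set T' := T.filter (fun g => ¬ (g.1 = w ∨ g.2 = w)) with hT'
  have hT'T : T' ⊆ T := filter_subset _ _
  have h1 : ∑ x : V → U, (1 - W c (x w)) * ∏ g ∈ T, W (x g.1) (x g.2) ≤
      ∑ x : V → U, (1 - W c (x w)) * ∏ g ∈ T', W (x g.1) (x g.2) := by
    refine sum_le_sum fun x _ => ?_
    exact mul_le_mul_of_nonneg_left (prod_mono hW.nonneg hW.le_one hT'T x)
      (by have := hW.le_one c (x w); linarith)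
  have h2 := peel W c w (fun x : V → U => ∏ g ∈ T', W (x g.1) (x g.2))
    (fun x a => prod_update W T' w (fun g hg => by
      rw [hT', mem_filter] at hg; tauto) x a)
  have h3 : Z W T' ≤ (1 + 3 * k * ε) * Z W T := by
    refine grow_up hE hW hε0 hD hε2 hT hT'T ((card_le_card ?_).trans hk) hkD
    intro g hg
    rw [mem_sdiff, hT', mem_filter] at hg
    rw [at_, mem_filter]
    tauto
  rw [h2] at h1
  exact h1.trans (mul_le_mul_of_nonneg_left h3 (div_nonneg hσ0 hN.le))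

/-- second moment, from below -/
theorem mom2 (hE : Edges E D) (hW : Ker W ε) (hε0 : 0 ≤ ε) (hD : 12 * (D:ℝ) * ε ≤ 1)
    (hε2 : 2 * ε ≤ 1) {T : Finset (V × V)} (hT : T ⊆ E) {w w' : V} (hww : w ≠ w')
    (hadj : ∀ g ∈ T, ¬ ((g.1 = w ∨ g.2 = w) ∧ (g.1 = w' ∨ g.2 = w'))) (c : U) :
    dfc W c / (Fintype.card U : ℝ) *
        (∑ x : V → U, (1 - W c (x w)) * ∏ g ∈ T, W (x g.1) (x g.2)) +
      dfc W c / (Fintype.card U : ℝ) *
        (∑ x : V → U, (1 - W c (x w')) * ∏ g ∈ T, W (x g.1) (x g.2)) -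
      (dfc W c / (Fintype.card U : ℝ)) ^ 2 * ((1 + 6 * D * ε) * Z W T) ≤
    ∑ x : V → U, (1 - W c (x w)) * (1 - W c (x w')) * ∏ g ∈ T, W (x g.1) (x g.2) := by
  have hN : (0 : ℝ) < (Fintype.card U : ℝ) := by exact_mod_cast Fintype.card_pos
  have hσ0 : 0 ≤ dfc W c := sum_nonneg fun y _ => by have := hW.le_one c y; linarith
  set s := dfc W c / (Fintype.card U : ℝ) with hs
  have hs0 : 0 ≤ s := div_nonneg hσ0 hN.le
  have hDε : 0 ≤ (D:ℝ) * ε := by positivity
  have v0 : ∀ y, 0 ≤ 1 - W c y := fun y => by have := hW.le_one c y; linarith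
  set R := T.filter (fun g => g.1 = w ∨ g.2 = w) with hR
  set R' := T.filter (fun g => g.1 = w' ∨ g.2 = w') with hR'
  set T'' := T.filter (fun g => ¬ ((g.1 = w ∨ g.2 = w) ∨ (g.1 = w' ∨ g.2 = w'))) with hT''
  have hT''T : T'' ⊆ T := filter_subset _ _
  have dRR' : Disjoint R R' := by
    rw [disjoint_left]
    intro g h1 h2
    rw [hR, mem_filter] at h1
    rw [hR', mem_filter] at h2
    exact hadj g h1.1 ⟨h1.2, h2.2⟩
  have dRT : Disjoint R T'' := by
    rw [disjoint_left]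
    intro g h1 h2
    rw [hR, mem_filter] at h1
    rw [hT'', mem_filter] at h2
    exact h2.2 (Or.inl h1.2)
  have dR'T : Disjoint R' T'' := by
    rw [disjoint_left]
    intro g h1 h2
    rw [hR', mem_filter] at h1
    rw [hT'', mem_filter] at h2
    exact h2.2 (Or.inr h1.2)
  have hun : T = R ∪ (R' ∪ T'') := by
    ext g
    rw [mem_union, mem_union, hR, hR', hT'', mem_filter, mem_filter, mem_filter]
    tauto
  have sRT : R ∪ T'' ⊆ T := union_subset (filter_subset _ _) (filter_subset _ _)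
  have sR'T : R' ∪ T'' ⊆ T := union_subset (filter_subset _ _) (filter_subset _ _)
  have hprod : ∀ x : V → U, ∏ g ∈ T, W (x g.1) (x g.2) =
      (∏ g ∈ R, W (x g.1) (x g.2)) * ((∏ g ∈ R', W (x g.1) (x g.2)) *
        ∏ g ∈ T'', W (x g.1) (x g.2)) := by
    intro x
    conv_lhs => rw [hun]
    rw [prod_union (disjoint_union_right.2 ⟨dRR', dRT⟩), prod_union dR'T]
  have hpt : ∀ x : V → U,
      (1 - W c (x w')) * ((1 - W c (x w)) * ∏ g ∈ R ∪ T'', W (x g.1) (x g.2)) +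
      (1 - W c (x w)) * ((1 - W c (x w')) * ∏ g ∈ R' ∪ T'', W (x g.1) (x g.2)) -
      (1 - W c (x w)) * ((1 - W c (x w')) * ∏ g ∈ T'', W (x g.1) (x g.2)) ≤
      (1 - W c (x w)) * (1 - W c (x w')) * ∏ g ∈ T, W (x g.1) (x g.2) := by
    intro x
    rw [hprod x, prod_union dRT, prod_union dR'T]
    set p := ∏ g ∈ R, W (x g.1) (x g.2) with hp
    set q := ∏ g ∈ R', W (x g.1) (x g.2) with hq
    set r := ∏ g ∈ T'', W (x g.1) (x g.2) with hr
    have p1 : p ≤ 1 := prod_le_one (fun g _ => hW.nonneg _ _) (fun g _ => hW.le_one _ _)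
    have q1 : q ≤ 1 := prod_le_one (fun g _ => hW.nonneg _ _) (fun g _ => hW.le_one _ _)
    have r0 : 0 ≤ r := prod_nonneg' hW.nonneg T'' x
    have h1 : 0 ≤ (1 - p) * (1 - q) := mul_nonneg (by linarith) (by linarith)
    have h2 := mul_nonneg (mul_nonneg (mul_nonneg (v0 (x w)) (v0 (x w'))) h1) r0
    nlinarith
  have hsum := sum_le_sum fun (x : V → U) (_ : x ∈ (univ : Finset (V → U))) => hpt x
  rw [sum_sub_distrib, sum_add_distrib] at hsum
  have t1 := peel W c w' (fun x : V → U => (1 - W c (x w)) *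
      ∏ g ∈ R ∪ T'', W (x g.1) (x g.2)) (fun x a => by
    rw [prod_update W _ w' (fun g hg => by
      rw [mem_union, hR, hT'', mem_filter, mem_filter] at hg
      have := hadj g (by tauto)
      tauto) x a, update_of_ne hww])
  have t2 := peel W c w (fun x : V → U => (1 - W c (x w')) *
      ∏ g ∈ R' ∪ T'', W (x g.1) (x g.2)) (fun x a => by
    rw [prod_update W _ w (fun g hg => by
      rw [mem_union, hR', hT'', mem_filter, mem_filter] at hg
      have := hadj g (by tauto)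
      tauto) x a, update_of_ne hww.symm])
  have t3 := peel W c w (fun x : V → U => (1 - W c (x w')) *
      ∏ g ∈ T'', W (x g.1) (x g.2)) (fun x a => by
    rw [prod_update W _ w (fun g hg => by
      rw [hT'', mem_filter] at hg
      tauto) x a, update_of_ne hww.symm])
  have t4 := peel W c w' (fun x : V → U => ∏ g ∈ T'', W (x g.1) (x g.2)) (fun x a =>
    prod_update W _ w' (fun g hg => by
      rw [hT'', mem_filter] at hg
      tauto) x a)
  rw [t1, t2, t3, t4] at hsum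
  rw [← hs] at hsum
  have u1 : ∑ x : V → U, (1 - W c (x w)) * ∏ g ∈ T, W (x g.1) (x g.2) ≤
      ∑ x : V → U, (1 - W c (x w)) * ∏ g ∈ R ∪ T'', W (x g.1) (x g.2) :=
    sum_le_sum fun x _ => mul_le_mul_of_nonneg_left
      (prod_mono hW.nonneg hW.le_one sRT x) (v0 _)
  have u2 : ∑ x : V → U, (1 - W c (x w')) * ∏ g ∈ T, W (x g.1) (x g.2) ≤
      ∑ x : V → U, (1 - W c (x w')) * ∏ g ∈ R' ∪ T'', W (x g.1) (x g.2) :=
    sum_le_sum fun x _ => mul_le_mul_of_nonneg_left
      (prod_mono hW.nonneg hW.le_one sR'T x) (v0 _)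
  have u3 : Z W T'' ≤ (1 + 6 * D * ε) * Z W T := by
    have := grow_up hE hW hε0 (by nlinarith) hε2 hT hT''T (k := 2 * D) (by
      have hsub : T \ T'' ⊆ at_ E w ∪ at_ E w' := by
        intro g hg
        rw [mem_sdiff, hT'', mem_filter] at hg
        rw [mem_union, at_, at_, mem_filter, mem_filter]
        have hgE := hT hg.1
        have hg1 := hg.1
        have hg2 := hg.2
        tauto
      have h5 := (card_le_card hsub).trans (card_union_le _ _)
      have h6 := hE.deg w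
      have h7 := hE.deg w'
      omega) (by push_cast; linarith)
    push_cast at this
    linarith
  have u1' := mul_le_mul_of_nonneg_left u1 hs0
  have u2' := mul_le_mul_of_nonneg_left u2 hs0
  have u3' := mul_le_mul_of_nonneg_left u3 (sq_nonneg s)
  have hZ'' : ∑ x : V → U, ∏ g ∈ T'', W (x g.1) (x g.2) = Z W T'' := rfl
  rw [hZ''] at hsum
  nlinarith

/-- third moment, from above -/
theorem mom3 (hE : Edges E D) (hW : Ker W ε) (hε0 : 0 ≤ ε) (hD : 18 * (D:ℝ) * ε ≤ 1)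
    (hε2 : 2 * ε ≤ 1) {T : Finset (V × V)} (hT : T ⊆ E) {w w' w'' : V} (h12 : w ≠ w')
    (h13 : w ≠ w'') (h23 : w' ≠ w'') (c : U) :
    ∑ x : V → U, (1 - W c (x w)) * (1 - W c (x w')) * (1 - W c (x w'')) *
      ∏ g ∈ T, W (x g.1) (x g.2) ≤
      (dfc W c / (Fintype.card U : ℝ)) ^ 3 * ((1 + 9 * D * ε) * Z W T) := by
  have hN : (0 : ℝ) < (Fintype.card U : ℝ) := by exact_mod_cast Fintype.card_pos
  have hσ0 : 0 ≤ dfc W c := sum_nonneg fun y _ => by have := hW.le_one c y; linarith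
  set s := dfc W c / (Fintype.card U : ℝ) with hs
  have hs0 : 0 ≤ s := div_nonneg hσ0 hN.le
  have hDε : 0 ≤ (D:ℝ) * ε := by positivity
  have v0 : ∀ y, 0 ≤ 1 - W c y := fun y => by have := hW.le_one c y; linarith
  set T' := T.filter (fun g => ¬ ((g.1 = w ∨ g.2 = w) ∨ (g.1 = w' ∨ g.2 = w') ∨
    (g.1 = w'' ∨ g.2 = w''))) with hT'
  have hT'T : T' ⊆ T := filter_subset _ _
  have h1 : ∑ x : V → U, (1 - W c (x w)) * (1 - W c (x w')) * (1 - W c (x w'')) *
      ∏ g ∈ T, W (x g.1) (x g.2) ≤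
      ∑ x : V → U, (1 - W c (x w)) * ((1 - W c (x w')) * ((1 - W c (x w'')) *
      ∏ g ∈ T', W (x g.1) (x g.2))) := by
    refine sum_le_sum fun x _ => ?_
    have := mul_le_mul_of_nonneg_left (prod_mono hW.nonneg hW.le_one hT'T x)
      (mul_nonneg (mul_nonneg (v0 (x w)) (v0 (x w'))) (v0 (x w'')))
    calc _ ≤ _ := this
      _ = _ := by ring
  have t1 := peel W c w (fun x : V → U => (1 - W c (x w')) * ((1 - W c (x w'')) *
      ∏ g ∈ T', W (x g.1) (x g.2))) (fun x a => by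
    rw [prod_update W _ w (fun g hg => by
      rw [hT', mem_filter] at hg
      tauto) x a, update_of_ne h12.symm, update_of_ne h13.symm])
  have t2 := peel W c w' (fun x : V → U => (1 - W c (x w'')) *
      ∏ g ∈ T', W (x g.1) (x g.2)) (fun x a => by
    rw [prod_update W _ w' (fun g hg => by
      rw [hT', mem_filter] at hg
      tauto) x a, update_of_ne h23.symm])
  have t3 := peel W c w'' (fun x : V → U => ∏ g ∈ T', W (x g.1) (x g.2)) (fun x a =>
    prod_update W _ w'' (fun g hg => by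
      rw [hT', mem_filter] at hg
      tauto) x a)
  rw [t1, t2, t3, ← hs] at h1
  have u3 : Z W T' ≤ (1 + 9 * D * ε) * Z W T := by
    have := grow_up hE hW hε0 (by nlinarith) hε2 hT hT'T (k := 3 * D) (by
      have hsub : T \ T' ⊆ at_ E w ∪ at_ E w' ∪ at_ E w'' := by
        intro g hg
        rw [mem_sdiff, hT', mem_filter] at hg
        rw [mem_union, mem_union, at_, at_, at_, mem_filter, mem_filter, mem_filter]
        have hgE := hT hg.1
        have hg1 := hg.1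
        have hg2 := hg.2
        tauto
      have h5 := (card_le_card hsub).trans (card_union_le _ _)
      have h5' := card_union_le (at_ E w) (at_ E w')
      have h6 := hE.deg w
      have h7 := hE.deg w'
      have h8 := hE.deg w''
      omega) (by push_cast; linarith)
    push_cast at this
    linarith
  have hZ' : ∑ x : V → U, ∏ g ∈ T', W (x g.1) (x g.2) = Z W T' := rfl
  rw [hZ'] at h1
  calc _ ≤ s * (s * (s * Z W T')) := h1
    _ = s ^ 3 * Z W T' := by ring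
    _ ≤ _ := mul_le_mul_of_nonneg_left u3 (by positivity)

/-- the probability of exactly one success at the vertex `u` -/
def Bt (W : U → U → ℝ) (E : Finset (V × V)) (c : U) (u : V) (f : V × V) : ℝ :=
  ∑ x : V → U, ((1 - W c (x (oth u f))) * ∏ g ∈ (at_ E u).erase f, W c (x (oth u g))) *
    ∏ g ∈ E.filter (fun g => ¬ (g.1 = u ∨ g.2 = u)), W (x g.1) (x g.2)

theorem mem_at_oth {u : V} {f : V × V} (hf : f ∈ at_ E u) : f ∈ at_ E (oth u f) := by
  rw [at_, mem_filter] at hf ⊢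
  refine ⟨hf.1, ?_⟩
  rcases oth_spec hf.2 with h | h
  · right; conv_lhs => rw [h]
  · left; conv_lhs => rw [h]

theorem no_adj (hE : Edges E D) (hb : Bip E) (u : V) {f g h : V × V} (hf : f ∈ at_ E u)
    (hg : g ∈ at_ E u) (hfg : f ≠ g) (hh : h ∈ E) :
    ¬ ((h.1 = oth u f ∨ h.2 = oth u f) ∧ (h.1 = oth u g ∨ h.2 = oth u g)) := by
  obtain ⟨col, hcol⟩ := hb
  have hc : ∀ f ∈ at_ E u, col (oth u f) ≠ col u := by
    intro f hf
    rw [at_, mem_filter] at hf
    rcases oth_spec hf.2 with h | h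
    · have := hcol f hf.1
      rw [h] at this
      exact this.symm
    · have := hcol f hf.1
      rw [h] at this
      exact this
  intro hcon
  have h1 := hc f hf
  have h2 := hc g hg
  have h3 := hcol h hh
  have h4 : oth u f ≠ oth u g := fun h' =>
    hfg (at_oth_inj hE u (mem_coe.2 hf) (mem_coe.2 hg) h')
  obtain ⟨ha, hb'⟩ := hcon
  have h5 : col (oth u f) = col (oth u g) := by
    generalize col (oth u f) = p at h1
    generalize col (oth u g) = q at h2
    generalize col u = r at h1 h2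
    cases p <;> cases q <;> cases r <;> simp_all
  rcases ha with ha | ha <;> rcases hb' with hb' | hb'
  · exact h4 (ha.symm.trans hb')
  · rw [ha, hb'] at h3; exact h3 h5
  · rw [ha, hb'] at h3; exact h3 h5.symm
  · exact h4 (ha.symm.trans hb')

theorem card_erase_real {ι : Type} [DecidableEq ι] {F : Finset ι} {f : ι} (hf : f ∈ F) :
    ((F.erase f).card : ℝ) = (F.card : ℝ) - 1 := by
  rw [card_erase_of_mem hf, Nat.cast_sub (card_pos.2 ⟨f, hf⟩)]
  simp

theorem sum_pairs {ι : Type} [DecidableEq ι] (F : Finset ι) (M : ι → ℝ) (s z : ℝ) :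
    ∑ f ∈ F, ∑ g ∈ F.erase f, (s * M f + s * M g - z) =
      2 * ((F.card : ℝ) - 1) * s * (∑ f ∈ F, M f) - z * ((F.card : ℝ) * ((F.card : ℝ) - 1)) := by
  have e1 : ∀ f ∈ F, ∑ g ∈ F.erase f, (s * M f + s * M g - z)
      = ((F.card : ℝ) - 1) * (s * M f) + s * ((∑ f ∈ F, M f) - M f) -
        ((F.card : ℝ) - 1) * z := by
    intro f hf
    rw [sum_sub_distrib, sum_add_distrib, sum_const, sum_const, ← mul_sum, nsmul_eq_mul,
      nsmul_eq_mul, card_erase_real hf, ← add_sum_erase F M hf]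
    ring
  rw [sum_congr rfl e1, sum_sub_distrib, sum_add_distrib, sum_const, nsmul_eq_mul,
    ← mul_sum, ← mul_sum, ← mul_sum, sum_sub_distrib, sum_const, nsmul_eq_mul]
  ring

theorem sum_triples_le {ι : Type} [DecidableEq ι] (F : Finset ι) (M : ι → ι → ι → ℝ) (z : ℝ)
    (h : ∀ f ∈ F, ∀ g ∈ F, ∀ h ∈ F, f ≠ g → f ≠ h → g ≠ h → M f g h ≤ z) :
    ∑ f ∈ F, ∑ g ∈ F.erase f, ∑ h ∈ (F.erase f).erase g, M f g h ≤
      (F.card : ℝ) * ((F.card : ℝ) - 1) * ((F.card : ℝ) - 2) * z := by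
  have e1 : ∀ f ∈ F, ∀ g ∈ F.erase f, ∑ h ∈ (F.erase f).erase g, M f g h ≤
      ((F.card : ℝ) - 2) * z := by
    intro f hf g hg
    have hgF := mem_of_mem_erase hg
    have hfg : f ≠ g := (ne_of_mem_erase hg).symm
    have hc : (((F.erase f).erase g).card : ℝ) = (F.card : ℝ) - 2 := by
      rw [card_erase_real hg, card_erase_real hf]; ring
    rw [← hc, ← nsmul_eq_mul, ← sum_const]
    refine sum_le_sum fun k hk => ?_
    exact h f hf g hgF k (mem_of_mem_erase (mem_of_mem_erase hk)) hfg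
      (ne_of_mem_erase (mem_of_mem_erase hk)).symm (ne_of_mem_erase hk).symm
  have e2 : ∀ f ∈ F, ∑ g ∈ F.erase f, ∑ h ∈ (F.erase f).erase g, M f g h ≤
      ((F.card : ℝ) - 1) * (((F.card : ℝ) - 2) * z) := by
    intro f hf
    rw [← card_erase_real hf, ← nsmul_eq_mul, ← sum_const]
    exact sum_le_sum fun g hg => e1 f hf g hg
  calc _ ≤ ∑ _f ∈ F, ((F.card : ℝ) - 1) * (((F.card : ℝ) - 2) * z) := sum_le_sum e2
    _ = _ := by rw [sum_const, nsmul_eq_mul]; ring

theorem B_arith {s l d D ε S H Z B Q2 Q3 : ℝ} (hs0 : 0 ≤ s) (l0 : 0 ≤ l) (hZ0 : 0 ≤ Z)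
    (hDε : 0 ≤ D * ε) (hD : 128 * (D * ε) ≤ 1) (hd1 : 1 ≤ d) (hdD : d ≤ D)
    (hl : l * s * D ≤ 1 / 4) (hH0 : 0 ≤ H) (b1 : S ≤ s * (d + H) * Z)
    (b2 : 2 * (d - 1) * s * S - s ^ 2 * ((1 + 6 * (D * ε)) * Z) * (d * (d - 1)) ≤ Q2)
    (b3 : Q3 ≤ d * (d - 1) * (d - 2) * (s ^ 3 * ((1 + 9 * (D * ε)) * Z)))
    (hsum : B ≤ S - l * Q2 + l ^ 2 / 2 * Q3) :
    B ≤ s * (d + H - 3 / 4 * l * s * (d * (d - 1))) * Z := by
  have hls : 0 ≤ l * s := mul_nonneg l0 hs0
  have hlsd : l * s * d ≤ 1 / 4 := (mul_le_mul_of_nonneg_left hdD hls).trans hl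
  have hd10 : 0 ≤ d - 1 := by linarith
  have hdd : 0 ≤ d * (d - 1) := mul_nonneg (by linarith) hd10
  have hc : 0 ≤ 1 - 2 * (l * s) * (d - 1) := by nlinarith
  have g1 : S * (1 - 2 * (l * s) * (d - 1)) ≤
      s * (d + H) * Z * (1 - 2 * (l * s) * (d - 1)) := mul_le_mul_of_nonneg_right b1 hc
  have h2 := mul_le_mul_of_nonneg_left b2 l0
  have h3 := mul_le_mul_of_nonneg_left b3 (by positivity : 0 ≤ l ^ 2 / 2)
  have hsZ : 0 ≤ s * Z := mul_nonneg hs0 hZ0
  set P := (l * s) * (d * (d - 1)) * (s * Z) with hP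
  have hP0 : 0 ≤ P := by positivity
  have g3 : l ^ 2 / 2 * (d * (d - 1) * (d - 2) * (s ^ 3 * ((1 + 9 * (D * ε)) * Z))) ≤
      1 / 8 * (1 + 9 * (D * ε)) * P := by
    have k1 : (l * s) * (d - 2) ≤ 1 / 4 := by nlinarith
    have k2 : 0 ≤ P * (1 + 9 * (D * ε)) / 2 := by positivity
    have k3 := mul_le_mul_of_nonneg_right k1 k2
    calc _ = (l * s) * (d - 2) * (P * (1 + 9 * (D * ε)) / 2) := by rw [hP]; ring
      _ ≤ _ := k3
      _ = _ := by ring
  have g5 : 0 ≤ 2 * (l * s) * (d - 1) * H * (s * Z) := by positivity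
  have g6 : (D * ε) * P ≤ 1 / 128 * P := mul_le_mul_of_nonneg_right (by linarith) hP0
  have g7 : B ≤ s * (d + H) * Z * (1 - 2 * (l * s) * (d - 1)) + (1 + 6 * (D * ε)) * P +
      1 / 8 * (1 + 9 * (D * ε)) * P := by
    have k : l * (2 * (d - 1) * s * S - s ^ 2 * ((1 + 6 * (D * ε)) * Z) * (d * (d - 1))) =
        S - S * (1 - 2 * (l * s) * (d - 1)) - (1 + 6 * (D * ε)) * P := by rw [hP]; ring
    linarith
  have g8 : s * (d + H) * Z * (1 - 2 * (l * s) * (d - 1)) =
      s * (d + H) * Z - 2 * P - 2 * (l * s) * (d - 1) * H * (s * Z) := by rw [hP]; ring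
  have g9 : s * (d + H - 3 / 4 * l * s * (d * (d - 1))) * Z =
      s * (d + H) * Z - 3 / 4 * P := by rw [hP]; ring
  rw [g9]
  linarith

/-- the expansion -/
theorem B_expand (hE : Edges E D) (hW : Ker W ε) (u : V) (c : U) {l : ℝ} (l0 : 0 ≤ l)
    (l1 : l ≤ 1) {T : Finset (V × V)} (F : Finset (V × V)) :
    ∑ f ∈ F, ∑ x : V → U, ((1 - W c (x (oth u f))) * ∏ g ∈ F.erase f, W c (x (oth u g))) *
      ∏ g ∈ T, W (x g.1) (x g.2) ≤
      ∑ f ∈ F, (∑ x : V → U, (1 - W c (x (oth u f))) * ∏ g ∈ T, W (x g.1) (x g.2)) -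
      l * ∑ f ∈ F, ∑ g ∈ F.erase f, (∑ x : V → U, (1 - W c (x (oth u f))) *
        (1 - W c (x (oth u g))) * ∏ g ∈ T, W (x g.1) (x g.2)) +
      l ^ 2 / 2 * ∑ f ∈ F, ∑ g ∈ F.erase f, ∑ h ∈ (F.erase f).erase g,
        (∑ x : V → U, (1 - W c (x (oth u f))) * (1 - W c (x (oth u g))) *
          (1 - W c (x (oth u h))) * ∏ g ∈ T, W (x g.1) (x g.2)) := by
  have v0 : ∀ y, 0 ≤ 1 - W c y := fun y => by have := hW.le_one c y; linarith
  have v1 : ∀ y, 1 - W c y ≤ 1 := fun y => by have := hW.nonneg c y; linarith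
  have hpt : ∀ x : V → U, ∑ f ∈ F, ((1 - W c (x (oth u f))) *
      ∏ g ∈ F.erase f, W c (x (oth u g))) * ∏ g ∈ T, W (x g.1) (x g.2) ≤
      ∑ f ∈ F, (1 - W c (x (oth u f))) * ∏ g ∈ T, W (x g.1) (x g.2) -
      l * ∑ f ∈ F, ∑ g ∈ F.erase f, (1 - W c (x (oth u f))) * (1 - W c (x (oth u g))) *
        ∏ g ∈ T, W (x g.1) (x g.2) +
      l ^ 2 / 2 * ∑ f ∈ F, ∑ g ∈ F.erase f, ∑ h ∈ (F.erase f).erase g,
        (1 - W c (x (oth u f))) * (1 - W c (x (oth u g))) * (1 - W c (x (oth u h))) *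
        ∏ g ∈ T, W (x g.1) (x g.2) := by
    intro x
    have h := one_le_soft F (fun f => 1 - W c (x (oth u f))) (fun f _ => v0 _)
      (fun f _ => v1 _) l0 l1
    simp only [sub_sub_cancel] at h
    have hp0 : 0 ≤ ∏ g ∈ T, W (x g.1) (x g.2) := prod_nonneg' hW.nonneg T x
    have h' := mul_le_mul_of_nonneg_right h hp0
    rw [← sum_mul]
    refine h'.trans (le_of_eq ?_)
    rw [add_mul, sub_mul, mul_assoc l, mul_assoc (l ^ 2 / 2)]
    simp only [sum_mul]
  have hsum := sum_le_sum fun (x : V → U) (_ : x ∈ (univ : Finset (V → U))) => hpt x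
  rw [sum_add_distrib, sum_sub_distrib, ← mul_sum, ← mul_sum] at hsum
  rw [sum_comm]
  refine hsum.trans (le_of_eq ?_)
  congr 1
  · congr 1
    · rw [sum_comm]
    · congr 1
      rw [sum_comm]
      exact sum_congr rfl fun f _ => sum_comm
  · congr 1
    rw [sum_comm]
    refine sum_congr rfl fun f _ => ?_
    rw [sum_comm]
    exact sum_congr rfl fun g _ => sum_comm

theorem deg_sub_nonneg {u : V} {f : V × V} (hf : f ∈ at_ E u) :
    0 ≤ ((at_ E (oth u f)).card : ℝ) - 1 := by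
  have : 1 ≤ (at_ E (oth u f)).card := card_pos.2 ⟨f, mem_at_oth hf⟩
  have : (1:ℝ) ≤ ((at_ E (oth u f)).card : ℝ) := by exact_mod_cast this
  linarith

theorem mom1' (hE : Edges E D) (hW : Ker W ε) (hε0 : 0 ≤ ε) (hD : 128 * (D:ℝ) * ε ≤ 1)
    (hε2 : 2 * ε ≤ 1) (u : V) (c : U) {f : V × V} (hf : f ∈ at_ E u) :
    ∑ x : V → U, (1 - W c (x (oth u f))) *
      ∏ g ∈ E.filter (fun g => ¬ (g.1 = u ∨ g.2 = u)), W (x g.1) (x g.2) ≤
      dfc W c / (Fintype.card U : ℝ) * ((1 + 3 * (((at_ E (oth u f)).card : ℝ) - 1) * ε) *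
        Z W (E.filter (fun g => ¬ (g.1 = u ∨ g.2 = u)))) := by
  have hDε : 0 ≤ (D:ℝ) * ε := by positivity
  set T := E.filter (fun g => ¬ (g.1 = u ∨ g.2 = u)) with hT
  have hTE : T ⊆ E := filter_subset _ _
  have hfw := mem_at_oth hf
  have hcard : (at_ T (oth u f)).card ≤ (at_ E (oth u f)).card - 1 := by
    rw [← card_erase_of_mem hfw]
    refine card_le_card ?_
    intro g hg
    rw [at_, mem_filter, hT, mem_filter] at hg
    rw [mem_erase, at_, mem_filter]
    refine ⟨?_, hg.1.1, hg.2⟩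
    rintro rfl
    rw [at_, mem_filter] at hf
    exact hg.1.2 hf.2
  have hcast : (((at_ E (oth u f)).card - 1 : ℕ) : ℝ) = ((at_ E (oth u f)).card : ℝ) - 1 := by
    rw [Nat.cast_sub (card_pos.2 ⟨f, hfw⟩)]; simp
  have hle : ((at_ E (oth u f)).card : ℝ) ≤ D := by exact_mod_cast hE.deg (oth u f)
  have := mom1 hE hW hε0 (by nlinarith) hε2 hTE (oth u f) c hcard (by
    rw [hcast]
    have : (((at_ E (oth u f)).card : ℝ) - 1) * ε ≤ D * ε :=
      mul_le_mul_of_nonneg_right (by linarith) hε0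
    nlinarith)
  rw [hcast] at this
  exact this

/-- upper bound for the probability of exactly one success -/
theorem B_le (hE : Edges E D) (hb : Bip E) (hW : Ker W ε) (hε0 : 0 ≤ ε)
    (hD : 128 * (D:ℝ) * ε ≤ 1) (hε2 : 2 * ε ≤ 1) (u : V) (c : U) {l : ℝ} (l0 : 0 ≤ l) (l1 : l ≤ 1)
    (hl : l * (dfc W c / (Fintype.card U : ℝ)) * D ≤ 1 / 4) :
    ∑ f ∈ at_ E u, Bt W E c u f ≤ dfc W c / (Fintype.card U : ℝ) *
      (((at_ E u).card : ℝ) + ∑ f ∈ at_ E u, 3 * (((at_ E (oth u f)).card : ℝ) - 1) * ε -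
        3 / 4 * l * (dfc W c / (Fintype.card U : ℝ)) *
          (((at_ E u).card : ℝ) * (((at_ E u).card : ℝ) - 1))) *
      Z W (E.filter (fun g => ¬ (g.1 = u ∨ g.2 = u))) := by
  have hN : (0 : ℝ) < (Fintype.card U : ℝ) := by exact_mod_cast Fintype.card_pos
  have hσ0 : 0 ≤ dfc W c := sum_nonneg fun y _ => by have := hW.le_one c y; linarith
  have hs0 : 0 ≤ dfc W c / (Fintype.card U : ℝ) := div_nonneg hσ0 hN.le
  have hDε : 0 ≤ (D:ℝ) * ε := by positivity
  have hTE : E.filter (fun g => ¬ (g.1 = u ∨ g.2 = u)) ⊆ E := filter_subset _ _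
  have hZ0 := Z_nonneg hW.nonneg (E.filter (fun g => ¬ (g.1 = u ∨ g.2 = u)))
  have hnn : ∀ f ∈ at_ E u, ∀ g ∈ at_ E u, f ≠ g → oth u f ≠ oth u g :=
    fun f hf g hg hfg h => hfg (at_oth_inj hE u (mem_coe.2 hf) (mem_coe.2 hg) h)
  rcases Nat.eq_zero_or_pos (at_ E u).card with h0 | h0
  · have hFe : at_ E u = ∅ := card_eq_zero.1 h0
    rw [hFe]
    simp
  have hd1 : (1:ℝ) ≤ ((at_ E u).card : ℝ) := by exact_mod_cast h0
  have hdD : ((at_ E u).card : ℝ) ≤ D := by exact_mod_cast hE.deg u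
  refine B_arith (D := D) (ε := ε) hs0 l0 hZ0 hDε (by linarith) hd1 hdD hl
    (sum_nonneg fun f hf => ?_) ?_ ?_ ?_ (B_expand hE hW u c l0 l1 (at_ E u))
  · have := deg_sub_nonneg hf
    positivity
  · refine (sum_le_sum fun f hf => mom1' hE hW hε0 hD hε2 u c hf).trans (le_of_eq ?_)
    rw [← mul_sum, ← sum_mul, sum_add_distrib, sum_const, nsmul_eq_mul]
    ring
  · rw [← sum_pairs]
    refine sum_le_sum fun f hf => sum_le_sum fun g hg => ?_
    have hgF := mem_of_mem_erase hg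
    have hfg : f ≠ g := (ne_of_mem_erase hg).symm
    have := mom2 hE hW hε0 (by nlinarith) hε2 hTE (hnn f hf g hgF hfg)
      (fun h hh => no_adj hE hb u hf hgF hfg (hTE hh)) c
    rw [mul_assoc (6:ℝ)] at this
    exact this
  · refine sum_triples_le (at_ E u) _ _ fun f hf g hg h hh hfg hfh hgh => ?_
    have := mom3 hE hW hε0 (by nlinarith) hε2 hTE (hnn f hf g hg hfg) (hnn f hf h hh hfh)
      (hnn g hg h hh hgh) c
    rw [mul_assoc (9:ℝ)] at this
    exact this

/-- one oriented edge of the stationarity condition -/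
theorem pin_edge (hE : Edges E D) (hW : Ker W ε) {e : V × V} (he : e ∈ E) {u : V}
    (hu : e.1 = u ∨ e.2 = u) (a : U) (x : V → U) :
    ∏ f ∈ E.erase e, W (update x u a f.1) (update x u a f.2) =
      (∏ g ∈ (at_ E u).erase e, W a (x (oth u g))) *
        ∏ g ∈ E.filter (fun g => ¬ (g.1 = u ∨ g.2 = u)), W (x g.1) (x g.2) := by
  have hdis : Disjoint ((at_ E u).erase e) (E.filter (fun g => ¬ (g.1 = u ∨ g.2 = u))) := by
    rw [disjoint_left]
    intro g h1 h2
    rw [mem_erase, at_, mem_filter] at h1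
    rw [mem_filter] at h2
    exact h2.2 h1.2.2
  have hun : E.erase e = (at_ E u).erase e ∪ E.filter (fun g => ¬ (g.1 = u ∨ g.2 = u)) := by
    ext g
    rw [mem_union, mem_erase, mem_erase, at_, mem_filter, mem_filter]
    by_cases hge : g = e
    · subst hge
      tauto
    · tauto
  rw [hun, prod_union hdis]
  congr 1
  · refine prod_congr rfl fun g hg => ?_
    rw [mem_erase, at_, mem_filter] at hg
    have hgne := hE.irrefl g hg.2.1
    have ho := oth_ne hg.2.2 hgne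
    rcases oth_spec hg.2.2 with h | h
    · have e1 : g.1 = u := by rw [h]
      have e2 : g.2 = oth u g := by
        have := congrArg Prod.snd h
        exact this
      rw [e1, e2, update_self, update_of_ne ho]
    · have e1 : g.2 = u := by rw [h]
      have e2 : g.1 = oth u g := by
        have := congrArg Prod.fst h
        exact this
      rw [e1, e2, update_self, update_of_ne ho, hW.symm]
  · refine prod_congr rfl fun g hg => ?_
    rw [mem_filter] at hg
    have h := hg.2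
    push Not at h
    rw [update_of_ne h.1, update_of_ne h.2]

theorem kkt_fst (hE : Edges E D) (hW : Ker W ε) {e : V × V} (he : e ∈ E) (a : U) :
    ∑ b, (1 - W a b) * A W E e a b = (Fintype.card U : ℝ) * Bt W E a e.1 e := by
  have hee := hE.irrefl e he
  have h := resample1 e.2 (fun x : V → U => (1 - W a (x e.2)) *
    ∏ f ∈ E.erase e, W (update x e.1 a f.1) (update x e.1 a f.2))
  have h1 : ∑ b, (1 - W a b) * A W E e a b = ∑ x : V → U, ∑ b, (fun x : V → U =>
      (1 - W a (x e.2)) * ∏ f ∈ E.erase e, W (update x e.1 a f.1) (update x e.1 a f.2))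
        (update x e.2 b) := by
    rw [sum_comm]
    refine sum_congr rfl fun b _ => ?_
    rw [A, mul_sum]
    refine sum_congr rfl fun x _ => ?_
    simp only [update_self]
    rw [update_comm hee.symm]
  rw [h1, h, Bt]
  congr 1
  refine sum_congr rfl fun x _ => ?_
  rw [pin_edge hE hW he (Or.inl rfl) a x, oth_fst, mul_assoc]

theorem kkt_snd (hE : Edges E D) (hW : Ker W ε) {e : V × V} (he : e ∈ E) (a : U) :
    ∑ b, (1 - W a b) * A W E e b a = (Fintype.card U : ℝ) * Bt W E a e.2 e := by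
  have hee := hE.irrefl e he
  have h := resample1 e.1 (fun x : V → U => (1 - W a (x e.1)) *
    ∏ f ∈ E.erase e, W (update x e.2 a f.1) (update x e.2 a f.2))
  have h1 : ∑ b, (1 - W a b) * A W E e b a = ∑ x : V → U, ∑ b, (fun x : V → U =>
      (1 - W a (x e.1)) * ∏ f ∈ E.erase e, W (update x e.2 a f.1) (update x e.2 a f.2))
        (update x e.1 b) := by
    rw [sum_comm]
    refine sum_congr rfl fun b _ => ?_
    rw [A, mul_sum]
    refine sum_congr rfl fun x _ => ?_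
    simp only [update_self]
  rw [h1, h, Bt]
  congr 1
  refine sum_congr rfl fun x _ => ?_
  rw [pin_edge hE hW he (Or.inr rfl) a x, oth_snd hee, mul_assoc]

/-- the stationarity condition, averaged over the deficit of the row `a` -/
theorem kkt (hE : Edges E D) (hW : IsMin W ε E) (hε1 : ε < 1) (hN0 : 0 < Fintype.card U)
    (a : U) :
    2 * E.card * (dfc W a / (Fintype.card U : ℝ)) * Z W E ≤
      ∑ u : V, ∑ f ∈ at_ E u, Bt W E a u f := by
  have hN : (0 : ℝ) < (Fintype.card U : ℝ) := by exact_mod_cast hN0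
  have hK := hW.1
  set S := ∑ u : V, ∑ f ∈ at_ E u, Bt W E a u f with hS
  have htot : tot W ≤ (Fintype.card U : ℝ) ^ 2 := by
    have : ∀ x ∈ (univ : Finset U), ∑ y, W x y ≤ (Fintype.card U : ℝ) := by
      intro x _
      refine (Finset.sum_le_sum fun y _ => hK.le_one x y).trans (le_of_eq ?_)
      simp
    refine (Finset.sum_le_sum this).trans (le_of_eq ?_)
    simp [sq]
  have hA0 : ∀ b, 0 ≤ ∑ e ∈ E, (A W E e a b + A W E e b a) := fun b =>
    Finset.sum_nonneg fun e _ => add_nonneg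
      (Finset.sum_nonneg fun x _ => Finset.prod_nonneg fun f _ => hK.nonneg _ _)
      (Finset.sum_nonneg fun x _ => Finset.prod_nonneg fun f _ => hK.nonneg _ _)
  have hb : ∀ b ∈ (univ : Finset U), (1 - W a b) * (2 * E.card * Z W E) ≤
      ∑ e ∈ E, ((1 - W a b) * A W E e a b + (1 - W a b) * A W E e b a) := by
    intro b _
    have hre : ∑ e ∈ E, ((1 - W a b) * A W E e a b + (1 - W a b) * A W E e b a) =
        (1 - W a b) * ∑ e ∈ E, (A W E e a b + A W E e b a) := by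
      rw [mul_sum]
      exact sum_congr rfl fun e _ => by ring
    rw [hre]
    by_cases h1 : W a b = 1
    · rw [h1]; simp
    have hlt : W a b < 1 := lt_of_le_of_ne (hK.le_one a b) h1
    have hst := stationary hE.irrefl hW hε1 hlt
    refine mul_le_mul_of_nonneg_left ?_ (by linarith)
    have h := hst.trans (mul_le_mul_of_nonneg_right htot (hA0 b))
    have h' : (Fintype.card U : ℝ) ^ 2 * (2 * E.card * Z W E) ≤
        (Fintype.card U : ℝ) ^ 2 * ∑ e ∈ E, (A W E e a b + A W E e b a) := by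
      calc _ = _ := by ring
        _ ≤ _ := h
    exact le_of_mul_le_mul_left h' (by positivity)
  have hsum := sum_le_sum hb
  rw [← sum_mul, sum_comm] at hsum
  have h1 : ∑ e ∈ E, ∑ b, ((1 - W a b) * A W E e a b + (1 - W a b) * A W E e b a) =
      (Fintype.card U : ℝ) * S := by
    rw [hS, sum_at hE.irrefl, mul_sum]
    refine sum_congr rfl fun e he => ?_
    rw [sum_add_distrib, kkt_fst hE hK he, kkt_snd hE hK he]
    ring
  rw [h1] at hsum
  have h2 : ∑ b, (1 - W a b) = dfc W a := rfl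
  rw [h2] at hsum
  have h3 : (Fintype.card U : ℝ) * (2 * E.card * (dfc W a / (Fintype.card U : ℝ)) * Z W E) ≤
      (Fintype.card U : ℝ) * S := by
    calc _ = dfc W a * (2 * E.card * Z W E) := by field_simp
      _ ≤ _ := hsum
  exact le_of_mul_le_mul_left h3 hN

/-- the degree -/
def dgr (E : Finset (V × V)) (u : V) : ℝ := ((at_ E u).card : ℝ)

omit [Fintype V] [Fintype U] [Nonempty U] in
theorem dgr_nonneg (E : Finset (V × V)) (u : V) : 0 ≤ dgr E u := Nat.cast_nonneg _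

theorem dgr_le (hE : Edges E D) (u : V) : dgr E u ≤ D := by
  unfold dgr
  exact_mod_cast hE.deg u

theorem dgr_q (E : Finset (V × V)) (u : V) : 0 ≤ dgr E u * (dgr E u - 1) := by
  rcases Nat.eq_zero_or_pos (at_ E u).card with h0 | h0
  · have : dgr E u = 0 := by unfold dgr; rw [h0]; norm_num
    rw [this]; norm_num
  · have : 1 ≤ dgr E u := by unfold dgr; exact_mod_cast h0
    exact mul_nonneg (dgr_nonneg E u) (by linarith)

/-- the sum over the neighbours -/
def nbs (E : Finset (V × V)) (ε : ℝ) (u : V) : ℝ :=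
  ∑ f ∈ at_ E u, 3 * (dgr E (oth u f) - 1) * ε

theorem nbs_nonneg (hε0 : 0 ≤ ε) (u : V) : 0 ≤ nbs E ε u := sum_nonneg fun f hf => by
  have := deg_sub_nonneg hf
  have h : 0 ≤ dgr E (oth u f) - 1 := this
  positivity

theorem nbs_le (hE : Edges E D) (hε0 : 0 ≤ ε) (hD : 128 * (D:ℝ) * ε ≤ 1) (u : V) :
    nbs E ε u ≤ 3 / 128 * dgr E u := by
  have h1 : ∀ f ∈ at_ E u, 3 * (dgr E (oth u f) - 1) * ε ≤ 3 / 128 := by
    intro f hf
    have h2 := dgr_le hE (oth u f)
    have h3 : (dgr E (oth u f) - 1) * ε ≤ D * ε :=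
      mul_le_mul_of_nonneg_right (by linarith) hε0
    linarith
  calc nbs E ε u ≤ ∑ _f ∈ at_ E u, (3 / 128 : ℝ) := sum_le_sum h1
    _ = _ := by rw [sum_const, nsmul_eq_mul, mul_comm]; rfl

theorem X_arith {s l d D ε H : ℝ} (hls : 0 ≤ l * s) (hε0 : 0 ≤ ε) (d0 : 0 ≤ d)
    (hdD : d ≤ D) (hq : 0 ≤ d * (d - 1)) (hl : l * s * D ≤ 1 / 4) (H0 : 0 ≤ H)
    (H1 : H ≤ 3 / 128 * d) :
    0 ≤ d + H - 3 / 4 * l * s * (d * (d - 1)) ∧
    (d + H - 3 / 4 * l * s * (d * (d - 1))) * (1 + 3 * d * ε) ≤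
      d + H - 3 / 4 * l * s * (d * (d - 1)) + 25 / 8 * ε * d ^ 2 := by
  have h3 : l * s * d ≤ 1 / 4 := (mul_le_mul_of_nonneg_left hdD hls).trans hl
  have h5 := mul_le_mul_of_nonneg_right h3 d0
  have h6 : 0 ≤ l * s * d := mul_nonneg hls d0
  have h7 : 0 ≤ l * s * (d * (d - 1)) := mul_nonneg hls hq
  have h8 : l * s * (d * (d - 1)) ≤ 1 / 4 * d := by nlinarith
  refine ⟨by linarith, ?_⟩
  have h9 : d + H - 3 / 4 * l * s * (d * (d - 1)) ≤ (1 + 3 / 128) * d := by linarith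
  have h10 : (d + H - 3 / 4 * l * s * (d * (d - 1))) * (3 * d * ε) ≤
      (1 + 3 / 128) * d * (3 * d * ε) :=
    mul_le_mul_of_nonneg_right h9 (by positivity)
  have h11 : 0 ≤ ε * d ^ 2 := by positivity
  nlinarith

theorem vertex_le (hE : Edges E D) (hb : Bip E) (hW : Ker W ε) (hε0 : 0 ≤ ε)
    (hD : 128 * (D:ℝ) * ε ≤ 1) (hε2 : 2 * ε ≤ 1) (u : V) (c : U) {l s : ℝ} (l0 : 0 ≤ l)
    (l1 : l ≤ 1) (hs : s = dfc W c / (Fintype.card U : ℝ)) (hs0 : 0 ≤ s)
    (hl : l * s * D ≤ 1 / 4) :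
    ∑ f ∈ at_ E u, Bt W E c u f ≤ s * Z W E * (dgr E u + nbs E ε u -
      3 / 4 * l * s * (dgr E u * (dgr E u - 1)) + 25 / 8 * ε * dgr E u ^ 2) := by
  have hDε : 0 ≤ (D : ℝ) * ε := by positivity
  have h8 : 8 * (D:ℝ) * ε ≤ 1 := by nlinarith
  have h1 := B_le hE hb hW hε0 hD hε2 u c l0 l1 (by rw [← hs]; exact hl)
  rw [← hs] at h1
  have h1' : ∑ f ∈ at_ E u, Bt W E c u f ≤ s * (dgr E u + nbs E ε u -
      3 / 4 * l * s * (dgr E u * (dgr E u - 1))) *
      Z W (E.filter (fun g => ¬ (g.1 = u ∨ g.2 = u))) := h1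
  have h2 : Z W (E.filter (fun g => ¬ (g.1 = u ∨ g.2 = u))) ≤
      (1 + 3 * dgr E u * ε) * Z W E := by
    refine grow_up hE hW hε0 h8 hε2 (Subset.refl E) (filter_subset _ _)
      (k := (at_ E u).card) ?_ ?_
    · refine card_le_card ?_
      intro g hg
      rw [mem_sdiff, mem_filter] at hg
      rw [at_, mem_filter]
      tauto
    · have := dgr_le hE u
      have h3 : dgr E u * ε ≤ D * ε := mul_le_mul_of_nonneg_right this hε0
      have h4 : 6 * (((at_ E u).card : ℕ) : ℝ) * ε = 6 * (dgr E u * ε) := by unfold dgr; ring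
      rw [h4]; linarith
  obtain ⟨hX0, hX1⟩ := X_arith (ε := ε) (mul_nonneg l0 hs0) hε0 (dgr_nonneg E u) (dgr_le hE u)
    (dgr_q E u) hl (nbs_nonneg hε0 u) (nbs_le hE hε0 hD u)
  have h3 := mul_le_mul_of_nonneg_left h2 (mul_nonneg hs0 hX0)
  refine (h1'.trans h3).trans ?_
  have h5 := mul_le_mul_of_nonneg_left hX1 (mul_nonneg hs0 (Z_nonneg hW.nonneg E))
  calc _ = s * Z W E * ((dgr E u + nbs E ε u - 3 / 4 * l * s * (dgr E u * (dgr E u - 1))) *
        (1 + 3 * dgr E u * ε)) := by ring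
    _ ≤ _ := h5

theorem sum_dgr (hE : ∀ e ∈ E, e.1 ≠ e.2) : ∑ u, dgr E u = 2 * E.card := by
  have h := sum_at (E := E) hE (fun _ _ => (1:ℝ))
  simp only [sum_const, nsmul_eq_mul, mul_one] at h
  have h' : ∑ u, dgr E u = ∑ u : V, ((at_ E u).card : ℝ) := rfl
  rw [h', h]
  ring

theorem sum_nbs (hE : ∀ e ∈ E, e.1 ≠ e.2) (ε : ℝ) :
    ∑ u, nbs E ε u = 3 * ε * ∑ u, dgr E u * (dgr E u - 1) := by
  have h := sum_at (E := E) hE (fun u f => 3 * (dgr E (oth u f) - 1) * ε)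
  have h' : ∑ u, nbs E ε u = ∑ u : V, ∑ f ∈ at_ E u, 3 * (dgr E (oth u f) - 1) * ε := rfl
  rw [h', h]
  have h2 : ∀ e ∈ E, 3 * (dgr E (oth e.1 e) - 1) * ε + 3 * (dgr E (oth e.2 e) - 1) * ε =
      3 * (dgr E e.1 - 1) * ε + 3 * (dgr E e.2 - 1) * ε := by
    intro e he
    rw [oth_fst, oth_snd (hE e he)]; ring
  rw [sum_congr rfl h2, ← sum_at (E := E) hE (fun u _ => 3 * (dgr E u - 1) * ε), mul_sum]
  refine sum_congr rfl fun u _ => ?_
  rw [sum_const, nsmul_eq_mul]
  unfold dgr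
  ring

theorem sum_sq (hE : ∀ e ∈ E, e.1 ≠ e.2) :
    ∑ u, dgr E u ^ 2 = (∑ u, dgr E u * (dgr E u - 1)) + 2 * E.card := by
  rw [← sum_dgr hE, ← sum_add_distrib]
  exact sum_congr rfl fun u _ => by ring

theorem card_le_q (hE : ∀ e ∈ E, e.1 ≠ e.2) (hiso : NoIso E) :
    (E.card : ℝ) ≤ ∑ u, dgr E u * (dgr E u - 1) := by
  have h : ∑ u, dgr E u * (dgr E u - 1) = ∑ e ∈ E, ((dgr E e.1 - 1) + (dgr E e.2 - 1)) := by
    rw [← sum_at (E := E) hE (fun u _ => dgr E u - 1)]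
    refine sum_congr rfl fun u _ => ?_
    rw [sum_const, nsmul_eq_mul]
    rfl
  rw [h]
  have h1 : (E.card : ℝ) = ∑ _e ∈ E, (1:ℝ) := by simp
  rw [h1]
  refine sum_le_sum fun e he => ?_
  obtain ⟨f, hfE, hfe, hf⟩ := hiso e he
  have m1 : e ∈ at_ E e.1 := by rw [at_, mem_filter]; exact ⟨he, Or.inl rfl⟩
  have m2 : e ∈ at_ E e.2 := by rw [at_, mem_filter]; exact ⟨he, Or.inr rfl⟩
  have c1 : 1 ≤ (at_ E e.1).card := card_pos.2 ⟨e, m1⟩
  have c2 : 1 ≤ (at_ E e.2).card := card_pos.2 ⟨e, m2⟩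
  have c3 : 3 ≤ (at_ E e.1).card + (at_ E e.2).card := by
    have h3 : f ∈ at_ E e.1 ∨ f ∈ at_ E e.2 := by
      rw [at_, at_, mem_filter, mem_filter]
      tauto
    rcases h3 with h3 | h3
    · have : 2 ≤ (at_ E e.1).card := one_lt_card.2 ⟨f, h3, e, m1, hfe⟩
      omega
    · have : 2 ≤ (at_ E e.2).card := one_lt_card.2 ⟨f, h3, e, m2, hfe⟩
      omega
  have c4 : (3:ℝ) ≤ dgr E e.1 + dgr E e.2 := by
    unfold dgr; exact_mod_cast c3
  linarith

theorem last_arith {s l D ε Q m Zz : ℝ} (hε0 : 0 ≤ ε) (hD : 128 * D * ε ≤ 1) (hD1 : 1 ≤ D)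
    (hspos : 0 < s) (hZ : 0 < Zz) (hm : 1 ≤ m) (hmQ : m ≤ Q) (hl : l = min 1 (1 / (4 * s * D)))
    (h : 2 * m * s * Zz ≤ s * Zz * (2 * m + 3 * ε * Q - 3 / 4 * l * s * Q +
      25 / 8 * ε * (Q + 2 * m))) : s ≤ 17 * ε := by
  have hQpos : 0 < Q := by linarith
  have hsZ : 0 < s * Zz := mul_pos hspos hZ
  have h9 : (s * Zz) * (2 * m) ≤ (s * Zz) * (2 * m + 3 * ε * Q -
      3 / 4 * l * s * Q + 25 / 8 * ε * (Q + 2 * m)) := by
    calc _ = _ := by ring
      _ ≤ _ := h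
  have h10 := le_of_mul_le_mul_left h9 hsZ
  have h11 : l * s * Q ≤ (33 / 2 * ε) * Q := by
    have : 0 ≤ ε * (Q - m) := mul_nonneg hε0 (by linarith)
    nlinarith
  have h12 : l * s ≤ 33 / 2 * ε := le_of_mul_le_mul_right h11 hQpos
  rcases min_choice (1:ℝ) (1 / (4 * s * D)) with h | h
  · rw [← hl] at h
    rw [h] at h12
    linarith
  · exfalso
    rw [← hl] at h
    have h13 : l * s = 1 / (4 * D) := by rw [h]; field_simp
    rw [h13, div_le_iff₀ (by positivity)] at h12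
    nlinarith

/-- all rows of the minimiser are very close to one: the optimal order -/
theorem rows_good3 (hE : Edges E D) (hb : Bip E) (hiso : NoIso E) (hne : E.Nonempty)
    (hW : IsMin W ε E) (hε0 : 0 ≤ ε) (hD : 128 * (D:ℝ) * ε ≤ 1) (hε2 : 2 * ε < 1) (a : U) :
    (1 - 17 * ε) * (Fintype.card U : ℝ) ≤ ∑ b, W a b := by
  have hNn : 0 < Fintype.card U := Fintype.card_pos
  have hN : (0 : ℝ) < (Fintype.card U : ℝ) := by exact_mod_cast hNn
  have hD1 : 1 ≤ D := by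
    obtain ⟨e, he⟩ := hne
    have h1 := hE.deg e.1
    have h2 : 0 < (at_ E e.1).card := card_pos.2 ⟨e, by rw [at_, mem_filter]; exact ⟨he, Or.inl rfl⟩⟩
    omega
  have hD1' : (1:ℝ) ≤ D := by exact_mod_cast hD1
  have hDε : 0 ≤ (D : ℝ) * ε := by positivity
  have h8 : 8 * (D:ℝ) * ε ≤ 1 := by nlinarith
  have hZ := Z_pos hE hW.1 hε0 h8 hε2
  have hσ0 : 0 ≤ dfc W a := sum_nonneg fun y _ => by have := hW.1.le_one a y; linarith
  obtain ⟨s, hs⟩ : ∃ s, s = dfc W a / (Fintype.card U : ℝ) := ⟨_, rfl⟩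
  have hs0 : 0 ≤ s := by rw [hs]; exact div_nonneg hσ0 hN.le
  have hσ : dfc W a = s * Fintype.card U := by rw [hs]; field_simp
  have hrow : ∑ b, W a b = (1 - s) * (Fintype.card U : ℝ) := by
    have : dfc W a = (Fintype.card U : ℝ) - ∑ b, W a b := by
      rw [dfc, sum_sub_distrib]; simp
    rw [sub_mul, one_mul, ← hσ, this]; ring
  rw [hrow]
  refine mul_le_mul_of_nonneg_right ?_ hN.le
  rcases hs0.eq_or_lt with hsz | hspos
  · rw [← hsz]; linarith
  obtain ⟨l, hl⟩ : ∃ l : ℝ, l = min 1 (1 / (4 * s * D)) := ⟨_, rfl⟩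
  have l0 : 0 < l := by rw [hl]; exact lt_min one_pos (by positivity)
  have l1 : l ≤ 1 := by rw [hl]; exact min_le_left _ _
  have hlD : l * s * D ≤ 1 / 4 := by
    have h1 : l ≤ 1 / (4 * s * D) := by rw [hl]; exact min_le_right _ _
    have h2 : l * (s * D) ≤ 1 / (4 * s * D) * (s * D) :=
      mul_le_mul_of_nonneg_right h1 (by positivity)
    have h3 : 1 / (4 * s * D) * (s * D) = 1 / 4 := by field_simp
    calc l * s * D = l * (s * D) := by ring
      _ ≤ _ := h2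
      _ = _ := h3
  have hk := kkt hE hW (by linarith) hNn a
  rw [← hs] at hk
  have hsum := hk.trans (sum_le_sum fun u (_ : u ∈ (univ : Finset V)) =>
    vertex_le hE hb hW.1 hε0 hD hε2.le u a l0.le l1 hs hs0 hlD)
  rw [← mul_sum, sum_add_distrib, sum_sub_distrib, sum_add_distrib, ← mul_sum, ← mul_sum,
    sum_dgr hE.irrefl, sum_nbs hE.irrefl, sum_sq hE.irrefl] at hsum
  have hm : (1:ℝ) ≤ E.card := by exact_mod_cast card_pos.2 hne
  have := last_arith hε0 hD hD1' hspos hZ hm (card_le_q hE.irrefl hiso) hl hsum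
  linarith

theorem main_noIso3 (hE : Edges E D) (hb : Bip E) (hiso : NoIso E) (hε0 : 0 ≤ ε)
    (hD : 128 * (D:ℝ) * ε ≤ 1) (hε2 : 2 * ε < 1)
    (hgood : ∀ W : U → U → ℝ, Ker W ε →
      (∀ a, (1 - 17 * ε) * (Fintype.card U : ℝ) ≤ ∑ b, W a b) → Ineq W E)
    (hW : Ker W ε) : Ineq W E := by
  have hNn : 0 < Fintype.card U := Fintype.card_pos
  have hN : (0 : ℝ) < (Fintype.card U : ℝ) := by exact_mod_cast hNn
  rcases E.eq_empty_or_nonempty with rfl | hne
  · unfold Ineq Z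
    simp [hN.ne']
  obtain ⟨W₀, h₀⟩ := exists_isMin E (by linarith) hW
  have h1 := hgood W₀ h₀.1 (rows_good3 hE hb hiso hne h₀ hε0 hD hε2)
  have h2 := h₀.2 W hW
  have ht : 0 < tot W := hW.tot_pos (by linarith)
  have ht₀ : 0 < tot W₀ := h₀.1.tot_pos (by linarith)
  unfold Ineq at h1 ⊢
  rw [div_pow, div_le_div_iff₀ (by positivity) (by positivity)] at h1 ⊢
  have h3 : tot W₀ ^ E.card * (tot W ^ E.card * (Fintype.card U : ℝ) ^ Fintype.card V)
      ≤ tot W₀ ^ E.card * (Z W E * ((Fintype.card U : ℝ) ^ 2) ^ E.card) := by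
    calc tot W₀ ^ E.card * (tot W ^ E.card * (Fintype.card U : ℝ) ^ Fintype.card V)
        = (tot W₀ ^ E.card * (Fintype.card U : ℝ) ^ Fintype.card V) * tot W ^ E.card := by ring
      _ ≤ (Z W₀ E * ((Fintype.card U : ℝ) ^ 2) ^ E.card) * tot W ^ E.card :=
          mul_le_mul_of_nonneg_right h1 (by positivity)
      _ = (Z W₀ E * tot W ^ E.card) * ((Fintype.card U : ℝ) ^ 2) ^ E.card := by ring
      _ ≤ (Z W E * tot W₀ ^ E.card) * ((Fintype.card U : ℝ) ^ 2) ^ E.card :=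
          mul_le_mul_of_nonneg_right h2 (by positivity)
      _ = _ := by ring
  exact le_of_mul_le_mul_left h3 (pow_pos ht₀ _)

/-- the row condition can be dropped, optimal form -/
theorem main3 (hε0 : 0 ≤ ε) (hD : 128 * (D:ℝ) * ε ≤ 1) (hε2 : 2 * ε < 1) :
    ∀ (k : ℕ) (E : Finset (V × V)), E.card = k → Edges E D → Bip E →
    (∀ W : U → U → ℝ, Ker W ε →
      (∀ a, (1 - 17 * ε) * (Fintype.card U : ℝ) ≤ ∑ b, W a b) → Ineq W E) →
    ∀ W : U → U → ℝ, Ker W ε → Ineq W E := by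
  intro k
  induction k with
  | zero =>
    intro E hk hE hb hgood W hW
    have : NoIso E := by
      rw [Finset.card_eq_zero] at hk
      subst hk
      intro e he
      simp at he
    exact main_noIso3 hE hb this hε0 hD hε2 hgood hW
  | succ k ih =>
    intro E hk hE hb hgood W hW
    by_cases hiso : NoIso E
    · exact main_noIso3 hE hb hiso hε0 hD hε2 hgood hW
    · unfold NoIso at hiso
      push Not at hiso
      obtain ⟨e, he, hf⟩ := hiso
      have h : ∀ f ∈ E, f ≠ e → ¬ (f.1 = e.1 ∨ f.2 = e.1 ∨ f.1 = e.2 ∨ f.2 = e.2) := by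
        intro f hfE hfe
        have := hf f hfE hfe
        tauto
      have hne := hE.irrefl e he
      rw [Ineq_iso he hne h (hW.tot_pos (by linarith))]
      refine ih (E.erase e) (by rw [Finset.card_erase_of_mem he, hk]; rfl)
        (hE.mono (Finset.erase_subset _ _)) (hb.mono (Finset.erase_subset _ _))
        (fun W' hW' hr => ?_) W hW
      rw [← Ineq_iso he hne h (hW'.tot_pos (by linarith))]
      exact hgood W' hW' hr

end bounds

end Vale.Agent.P050.MinRed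

namespace Vale.Agent.P050.Dense

open Vale.Agent.P050

theorem bip_orient {V : Type} [Fintype V] [DecidableEq V] (H : SimpleGraph V)
    [DecidableRel H.Adj] (hbip : H.IsBipartite) : MinRed.Bip (orient H) := by
  obtain ⟨C⟩ := hbip
  refine ⟨fun v => decide (C v = 0), fun e he h => ?_⟩
  have h1 := C.valid (mem_orient H he).1
  have h2 : (C e.1 = 0) ↔ (C e.2 = 0) := by
    rw [decide_eq_decide] at h
    exact h
  apply h1
  generalize C e.1 = p at h2
  generalize C e.2 = q at h2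
  revert p q
  decide

/-- **M10**, optimal form (bipartite targets): for `128 D ε ≤ 1` all the rows of the extremal
kernel have deficit at most `17 ε`. -/
theorem remove_rows3 {V : Type} [Fintype V] [DecidableEq V] (H : SimpleGraph V)
    [DecidableRel H.Adj] (hbip : H.IsBipartite) {D : ℕ} (hD : ∀ v, H.degree v ≤ D) {θ ε : ℝ}
    (hε0 : 0 ≤ ε) (hε : 17 * ε ≤ θ) (hε8 : 128 * (D:ℝ) * ε ≤ 1)
    (hgood : ∀ (n : ℕ) (W : Fin n → Fin n → ℝ) (hs : ∀ x y, W x y = W y x), 0 < n →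
      (∀ x y, 0 ≤ W x y) → (∀ x y, W x y ≤ 1) → (∀ x, (1 - θ) * n ≤ ∑ y, W x y) →
      pden W ^ H.edgeFinset.card ≤ tden H W hs)
    {X : Type} [Fintype X] [Nonempty X] (W : X → X → ℝ) (hs : ∀ x y, W x y = W y x)
    (h0 : ∀ x y, 0 ≤ W x y) (h1 : ∀ x y, W x y ≤ 1) (hp : 1 - ε ≤ pden W) :
    pden W ^ H.edgeFinset.card ≤ tden H W hs := by
  rcases Nat.eq_zero_or_pos D with hD0 | hD0
  · have hE : H.edgeFinset = ∅ := by
      rw [Finset.eq_empty_iff_forall_notMem]
      intro e he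
      induction e using Sym2.ind with
      | _ u v =>
        rw [SimpleGraph.mem_edgeFinset, SimpleGraph.mem_edgeSet] at he
        have h := hD u
        have : 0 < H.degree u := (SimpleGraph.degree_pos_iff_exists_adj _ _).2 ⟨v, he⟩
        omega
    have hX : (0 : ℝ) < (Fintype.card X : ℝ) := by exact_mod_cast Fintype.card_pos
    rw [tden]
    simp [hE, hX.ne']
  have hε2 : 2 * ε < 1 := by
    have : (1 : ℝ) ≤ D := by exact_mod_cast hD0
    nlinarith
  set n := Fintype.card X with hn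
  have hn0 : 0 < n := Fintype.card_pos
  have : Nonempty (Fin n) := ⟨⟨0, hn0⟩⟩
  set φ : Fin n ≃ X := (Fintype.equivFin X).symm with hφ
  rw [← pden_equiv φ W, ← tden_equiv H φ W hs]
  set W' : Fin n → Fin n → ℝ := fun x y => W (φ x) (φ y) with hW'
  have hN : (0 : ℝ) < (n : ℝ) ^ 2 := by positivity
  rw [← ineq_iff]
  refine MinRed.main3 hε0 hε8 hε2 _ (orient H) rfl (orient_edges H hD) (bip_orient H hbip) ?_ W' ?_
  · intro W₁ hK hr
    rw [ineq_iff H W₁ hK.symm]
    refine hgood n W₁ hK.symm hn0 hK.nonneg hK.le_one fun x => ?_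
    have := hr x
    rw [Fintype.card_fin] at this
    refine le_trans ?_ this
    refine mul_le_mul_of_nonneg_right ?_ (by positivity)
    linarith
  · refine ⟨fun a b => hs _ _, fun a b => h0 _ _, fun a b => h1 _ _, ?_⟩
    rw [← pden_equiv φ W, pden_eq, Fintype.card_fin, le_div_iff₀ hN] at hp
    rw [Fintype.card_fin]
    exact hp

end Vale.Agent.P050.Dense
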